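import Vale.Agent.P014U.Ct.St
import Vale.Agent.P014U.Ba.Mc
import Vale.Agent.P014T.Ct.Fin

/-! # P014U, block C-TOP: from matrices to points (helper64) -/

set_option autoImplicit false
set_option linter.all false

open NumberField Matrix Set
open scoped Classical

noncomputable section

namespace Vale.Agent.P014U.Ct

export Vale.Agent.P014T.Ct (mp_vec)

open Vale.Agent.P022 (GQ)
open Vale.Agent.P004F (M2 hq)
open P004M.TE (Pt ga)
open P027M.K (TM)
open PadicInt (toZModPow)
open Dr (Zn)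
open Pp (Bs)
open Top (El sg)
open Kx.Tw (co)
open Ew (cz rj)

variable [Pp] [Fl] {A B : ℤ} {h : El A B} {N : ℕ} {a : ℕ → ℤ} {b : Bs}

theorem Mb.act (M : Mb h N a b) (n : ℕ) : b.ρ n = rj (hq h) n := by
  rw [Bs.ρ, M.r]
  rfl

theorem Mb.fix (M : Mb h N a b) : X4M.TE.mt (hq h) b.c *ᵥ b.gp = b.gp := M.r ▸ b.fix

/-- **row FIN** -/
theorem fin : FIN := by
  intro A B h N a b S R _ α r n Q u v w gp x p Q₀ v₀ w₀ β k l M hP cv cw hα hg hQ hv hw q1 q2
    hβ ok g G e j ej jn hj
  rw [M.act] at hα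
  have X := Ew.xy_co (hq h) n
  have key : ∀ j, j ≤ n → Nat.card (Ba.Kr (Q₀.map (toZModPow j))) = Top.cz A B S b.c j ∧
      Ba.sp (fun k => toZModPow j (v₀ k)) (fun k => toZModPow j (w₀ k)) =
        sg g n j (cz (co (hq h) n) (k • (fun g => p ∘ x g) +
          l • db (fun g => (α g).map p) (toZModPow n ∘ b.gp))) := fun j le => by
    let f := ZMod.castHom (pow_dvd_pow pp le) (Zn j)
    have c : ∀ y, f (toZModPow n y) = toZModPow j y := fun y =>
      DFunLike.congr_fun (PadicInt.zmod_cast_comp_toZModPow j n le) y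
    have cv' : ∀ {ι : Type} {s : ι → R} {t : ι → ℤ_[pp]}, p ∘ s = toZModPow n ∘ t →
        f.comp p ∘ s = toZModPow j ∘ t := fun e => funext fun i =>
      (congrArg f (congrFun e i)).trans (c _)
    have ha : (fun g => (α g).map (f.comp p)) = rj (hq h) j := funext fun g => Matrix.ext fun s t =>
      (congrArg f (congrFun (congrFun (hα g) s) t)).trans (c _)
    obtain ⟨k1, k2⟩ := Ew.fin (hq h) h b.cc M.fix M.pv _ _ (ha ▸ hP.bc (f.comp p))
      (v := f.comp p ∘ v) (w := f.comp p ∘ w) (by rw [mp_vec, cv.1]; exact funext fun _ => map_zero _)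
      (by rw [mp_vec, cw.1]; exact funext fun _ => map_zero _) (fun g => by
        rw [mp_vec, cv.2, db, ← mp_vec, cv' hg, Matrix.map_sub _ (map_sub _),
          Matrix.map_one _ (map_zero _) (map_one _), congrFun ha g]) G
    rw [show Q.map (f.comp p) = Q₀.map (toZModPow j) from Matrix.ext fun s t =>
      (congrArg f (congrFun (congrFun hQ s) t)).trans (c _)] at k1
    rw [cv' hv] at k2
    nth_rw 1 [cv' hw] at k2
    refine ⟨k1, k2.trans ?_⟩
    simp only [mp_vec, cw.2]
    rw [show (fun g => f.comp p ∘ x g) = fun g => f ∘ p ∘ x g from rfl, Ew.cz_red _ le, sg, map_add,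
      map_zsmul, nsmul_add, smul_comm _ k, ← Ew.sp_odd (k := n) (by
        rw [smul_comm, Ew.cz_tor, nsmul_zero]) ok]
    refine Ew.sp_congr rfl ?_
    rw [sub_add_cancel_left, Ew.cz_smul, smul_comm, funext hα, show cz _ (db _ _) = _ from X.cz_cob _,
      ← map_nsmul, ← Ew.co_red _ le f, show f ∘ toZModPow n ∘ b.gp = toZModPow j ∘ b.gp from
        funext fun _ => c _, ← Ew.cp_tv, Ew.gp_zm h b.cc G (Ew.gp_tv (hq h) M.fix M.pv)]
    exact neg_mem (nsmul_mem (AddSubgroup.mem_zmultiples _) _)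
  obtain ⟨m1, m2⟩ := Ba.mc0 _ Q₀ q1 q2 hβ ej ((key j jn).2 ▸ hj)
  exact ⟨(key n le_rfl).1 ▸ m1 n (by omega), by rw [← (key j jn).1, ← (key j jn).2, m2]⟩

end Vale.Agent.P014U.Ct
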