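import Vale.Agent.P014T.Ct.St
import Vale.Agent.P014U.St
import Vale.Agent.P014U.Pp.St
import Vale.Agent.P014U.Ew.Dic
import Vale.Agent.P014U.Dr.Unr

/-! # P014U, block C-TOP: from the Euler system to the row `KATO` (words and rows) -/

set_option autoImplicit false
set_option linter.all false

open NumberField Matrix Filter PowerSeries Set
open scoped Classical MatrixGroups UpperHalfPlane

noncomputable section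

namespace Vale.Agent.P014U

/-- the fixed part of the level: four, or one for the systems of odd level -/
class Fl where
  fl : ℕ
  dv : fl ∣ 4

export Fl (fl)

namespace Ct

export Vale.Agent.P014T.Ct (Sm sm kp db Pr Cl)

open Vale.Agent.P022 (Qb GQ IsConj)
open Vale.Agent.P027M.S (Inert)
open Vale.Agent.P022D.W (dec)
open Vale.Agent.P022E.GW (Ov Fb)
open Vale.Agent.P022K.G2 (In)
open X4S (Pl)
open X4S.Ga (K)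
open X4F (La Rj cj mj)
open Vale.Agent.P004F (M2 hq)
open X4F.Pat (U Sy)
open Vale.Agent.P027M.M (Mdl FF cv)
open P004M.TE (Pt ga al)
open P004N (RN)
open PadicInt (toZModPow toZMod)
open Dr (Hm Ha Zn aa am Gr Raw Cd Ch cor Ug)
open P014T.Pq (Zq)
open Pp (Bs Tw)
open Top (El Pm Lp w0 nq cS sg)
open Bt (Z0 Gp)
open P014T.Wm (Fx)
open Lc (Lk)
open Ah (Ind)
open Kx.Tw (co)
open Ew (cz rj)
open P014T.Rc (KZ rg Vol)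
open P014T.Pu (ParY)
open P014T.Sg (sF)

variable [Pp] [Fl]

/-! ## the Euler systems -/

/-- admissible conductors for the system which is primitive at the primes of `s` -/
def Aq (n N : ℕ) (s : Finset ℕ) (c M : ℕ) : Prop :=
  M ≠ 0 ∧ fl * pp ^ (n + 1) ∣ M ∧ N ∣ M ∧ M.Coprime c ∧ ∀ p ∈ s, ¬ p ^ 2 ∣ M

/-- primes which divide `N` exactly once -/
def Dx (N : ℕ) (s : Finset ℕ) : Prop := ∀ p ∈ s, p.Prime ∧ ¬ p ∣ fl * pp ∧ p ∣ N ∧ ¬ p ^ 2 ∣ N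

/-- families indexed by the primitive primes, the smoothing prime and the conductor -/
abbrev Fy (n : ℕ) : Type := Finset ℕ → ℕ → ℕ → GQ → Fin 2 → Zn n

/-- **the raw systems and the relations between them** -/
structure Zy {n : ℕ} (ρ : GQ →* M2 (Zn n)) (N : ℕ) (a : ℕ → ℤ) (y : Fy n) : Prop where
  raw : ∀ (s S : Finset ℕ) c, Dx N s → Sm N c → c ∈ S → s ⊆ S → Raw ρ S a (Aq n N s c) (y s c)
  rel : ∀ (s : Finset ℕ) c c' M M' (R : Type) [CommRing R] (ι : Zn n →+* R) (Ψ : GQ →* R) (pl : Pl),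
    Dx N s → Sm N c → Sm N c' → M = M' * ∏ p ∈ s, p → Aq n N s (c * c') M → Cd M' Ψ → ∀ g₀ ∈ Ha,
    Ch ⊤ (aa ρ ι Ψ)
      ((ι (ρ g₀ - 1).det ^ 2 * kp a s * sm Ψ (pl.σ c') c') • cor ρ ι Ψ (Hm M) (y ∅ c M))
      ((ι (ρ g₀ - 1).det ^ 2 * sm Ψ (pl.σ c) c * ∏ p ∈ s, (p - a p * Ψ (pl.σ p))) •
        cor ρ ι Ψ (Hm M) (y s c' M))
  up : ∀ c M (R : Type) [CommRing R] (ι : Zn n →+* R) (Ψ : GQ →* R), Sm N c → Aq n N ∅ c M →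
    2 ∣ M → Cd M Ψ → ∀ g₀ ∈ Ha, Ch ⊤ (aa ρ ι Ψ)
      (ι (ρ g₀ - 1).det ^ 2 • cor ρ ι Ψ (Hm (M * 2)) (y ∅ c (M * 2)))
      (ι (ρ g₀ - 1).det ^ 2 • cor ρ ι Ψ (Hm M) (y ∅ c M))

/-- the unit system consists of symbols of Siegel units -/
def Zk (Kz : KZ) (X : Mdl) {A B : ℤ} (h : El A B) (x y : FF) (γ : SL(2, ℤ)) (N c : ℕ) {n : ℕ}
    (z : Fy n) : Prop := ∀ M, Aq n N ∅ c M → 4 ∣ M →
  Kz X A B x y M n (sF c (rg M γ 0)) (sF c (rg M γ 1)) (cz (co (hq h) n) (z ∅ c M))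

/-- the conductor of the bottom class -/
structure Lv (n N : ℕ) (S : Finset ℕ) (M : ℕ) : Prop where
  ne : M ≠ 0
  pf : M.primeFactors = S
  two : fl * pp ^ (n + 1) ∣ M
  dv : N ∣ M
  sq : ∀ p : ℕ, p.Prime → ¬ p ∣ fl * pp → p ^ 2 ∣ M → p ^ 2 ∣ N

/-- the symbol has the smallest imaginary part up to a number prime to `pp` -/
def Gam (N : ℕ) (I : ℍ → ℂ) (A B : ℤ) (γ : SL(2, ℤ)) : Prop :=
  ¬ (N : ℤ) ∣ γ 1 0 ∧ ¬ (N : ℤ) ∣ γ 1 1 ∧ ∃ (v : ℝ) (k : ℤ), Vol (P014T.Es.LL I) v ∧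
    ¬ (pp : ℤ) ∣ k ∧ (P014T.Es.sy I γ).im * w0 A B = k * v

/-! ## the curve -/

/-- the primes at which the system is primitive -/
def sp (b : Bs) : Finset ℕ := b.σ.filter (¬ · ∣ fl)

/-- the local factors -/
structure Lf (N : ℕ) (a : ℕ → ℤ) (b : Bs) : Prop where
  ne : N ≠ 0
  bad : ∀ p : ℕ, p.Prime → p ∣ 2 * N → p ∈ b.S
  nd : ∀ p ∈ sp b, ¬ p ^ 2 ∣ N ∧ (p ∣ N → a p ≠ 0)
  gd : ∀ l P, Ov l P → (l ∈ b.S → l ∈ sp b ∧ ¬ l ∣ N) →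
    (∀ i, Inert P i → b.r i = 1) ∧ ∀ φ, Fb l P φ → (b.r φ).trace = a l
  eE : ∀ p ∈ sp b, b.E p = Polynomial.C (p : ℤ_[pp]) -
    Polynomial.C (a p : ℤ_[pp]) * Polynomial.X + if p ∣ N then 0 else Polynomial.X ^ 2

/-- `S` contains all bad primes -/
def Bad (A B : ℤ) (N : ℕ) (a : ℕ → ℤ) (S : Finset ℕ) : Prop := ∀ p : ℕ, p.Prime →
  (p : ℤ) ∣ 2 * pp * N * (4 * A ^ 3 + 27 * B ^ 2) ∨ al A B p ≠ a p → p ∈ S

/-- `b` belongs to the curve -/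
structure Mb {A B : ℤ} (h : El A B) (N : ℕ) (a : ℕ → ℤ) (b : Bs) : Prop where
  lf : Lf N a b
  r : b.r = X4M.TE.mt (hq h)
  bad : Bad A B N a b.S
  pv : ∃ i, IsUnit (b.gp i)

/-- the value of the local factors which the system does not see -/
def ek (b : Bs) : ℤ_[pp] := ∏ p ∈ b.σ.filter (· ∣ fl), (b.E p).eval 1

/-- the number which kills the obstruction to descend from `Ha` -/
def dl (b : Bs) (g₀ : GQ) : ℤ_[pp] := (b.r g₀ - 1).det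

/-- the value of the smoothing factor -/
def s0 (c : ℕ) : ℤ_[pp] := (c ^ 2 - c) ^ 2

/-- `x` is a framed cocycle in the bottom class -/
structure Xz (b : Bs) (g₀ : GQ) {n' n : ℕ} (f : Zn n' →+* Zn n) (M : ℕ) (y : GQ → Fin 2 → Zn n')
    (x : GQ → Fin 2 → Zn n) : Prop where
  mem : x ∈ Zq (Zn n) b.S (aa (b.ρ n') f 1) b.c
  ch : Ch ⊤ (aa (b.ρ n') f 1) x (toZModPow n (dl b g₀ ^ 2) • cor (b.ρ n') f 1 (Hm M) y)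

/-! ## towers -/

variable {b : Bs}

/-- the tower fits the smoothing prime, the local factors are bounded -/
structure Tx (t : Tw b) (c : ℕ) : Prop where
  tq : ∀ j, Mu.Tq (insert c b.S) (2 * j + 4) (t.c j) (t.e j)
  ne : ∀ j, t.q j ≠ c
  crd : ∀ j, (t.T j).card ≤ t.m
  gq : ∀ j, ∀ l ∈ t.T j, ¬ (pp : ℤ_[pp]) ^ t.m ∣ (b.r (b.pl.σ l) - 1).det

/-- no `μ`-invariant -/
def Mz (t : Tw b) : Prop := ∀ (r : ℕ) (Q : ∀ j, Matrix (Fin r) (Fin (r + 2)) (Rj (j + 1)))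
  (u : ∀ j, GQ → Matrix (Fin 2) (Fin (r + 2)) (Rj (j + 1))),
  (∀ᶠ j in U, Pr (t.a j) (b.S ∪ t.T j) b.c (Q j) (u j)) → ∃ C : Matrix (Fin 2) (Fin (r + 2)) La,
    map toZMod (Ba.st finSumFinEquiv.symm (Sy.succ.um Q) C).det ≠ 0

/-- the unit class at level `j` -/
def cu (t : Tw b) (j c M : ℕ) (y : Fy (t.N j)) : GQ → Fin 2 → Rj (j + 1) :=
  cor (b.ρ (t.N j)) (t.ι j) (t.Ψ j) (Hm (M * (t.c j * t.q j))) (y ∅ c (M * (t.c j * t.q j)))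

/-- evaluation at `X = 0` modulo `pp ^ n` -/
def Ev {j n : ℕ} (p : Rj j →+* Zn n) : Prop := ∀ y : La, p (mj j y) = toZModPow n (constantCoeff y)

/-- the levels are large enough -/
def Hi (t : Tw b) (g₀ : GQ) : Prop :=
  ∀ j v, (b.ρ (t.N j) g₀ - 1).det ^ 2 * v = 0 → t.ι j v = 0

/-! ## the words of the end -/

/-- the reciprocity laws (the first four fields of `Top.Zt`) -/
structure Zr {A B : ℤ} (h : El A B) (S : Finset ℕ) (c : GQ) (P : Ideal (𝓞 Qb)) (ι : Qb →+* ℂ_[pp])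
    (lg : Fx A B (dec P) →+ K) (σ : ℤ_[pp]) (ρ : ℚ) (m n : ℕ) (z : GQ → Pt A B) : Prop where
  mem : z ∈ Z0 A B S c
  tor : pp ^ n • z = 0
  r0 : ∃ u : ℤ_[pp]ˣ, Top.Rc h P lg m n z ((u * σ : ℤ_[pp]) * ρ)
  r1 : ρ = 0 → ∀ (l : ℕ) W χ, Rb.Lx l n W χ → l ∉ S → m < l → W (-1) = 0 → (∀ p ∈ S, W p = 0) →
    ∃ (z₁ : GQ → Pt A B) (t : Pt A B) (j : Qb →+* ℂ) (x : Qb) (μ : K) (u : ℤ_[pp]ˣ),
      Rb.Cn n z₁ ∧ pp ^ n • t = 0 ∧ (∀ g ∈ In (insert l S : Finset ℕ), z₁ g = 0) ∧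
      (∀ g k, z₁ (g * k) = z₁ g + ga g (z₁ k) + (χ g).val • ga g (nq A B l • z k + (ga k t - t))) ∧
      j x * w0 A B = P014T.Rk.Lw (al A B) (cS (insert l S) fun k => (W k).val) ∧
      ‖Ah.am μ - ι x‖ * (pp : ℝ) ^ n ≤ (pp : ℝ) ^ m ∧ Top.Rc h P lg m n z₁ ((u * σ : ℤ_[pp]) * μ)

/-- the numbers of the main conjecture -/
def Mc (A B : ℤ) (c : GQ) (T : Finset ℕ) (n : ℕ) (z : GQ → Pt A B) (β : ℤ_[pp]) : Prop :=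
  ∀ g, Gp A B c g → ∀ b j, b < j → j ≤ n → (pp ^ 2) ^ j ≤ pp ^ b * sg g n j z →
    Top.cz A B T c n ≤ (pp ^ 2) ^ n * pp ^ b ∧
      (sg g n j z * Top.cz A B T c j : ℝ) = ((pp : ℝ) ^ 4) ^ j * ‖β‖

/-- the output of the Iwasawa side -/
def Co1 (t : Tw b) (c : ℕ) (M : ℕ → ℕ) (y : ∀ j, Fy (t.N j)) (e α : ℤ_[pp]) : Prop :=
  ∃ (r : ℕ) (Q₀ : Matrix (Fin r) (Fin (r + 2)) ℤ_[pp]) (v₀ w₀ : Fin (r + 2) → ℤ_[pp]),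
    Q₀ *ᵥ v₀ = 0 ∧ Q₀ *ᵥ w₀ = 0 ∧
    (∀ C, (C * Ba.cl v₀ (e • w₀)).det = s0 c * α * (Ba.st finSumFinEquiv.symm Q₀ C).det) ∧
    ∀ n, ∃ (j : ℕ) (p : Rj (j + 1) →+* Zn n) (Q : Matrix (Fin r) (Fin (r + 2)) (Rj (j + 1)))
      (u : GQ → Matrix (Fin 2) (Fin (r + 2)) (Rj (j + 1))) (v w : Fin (r + 2) → Rj (j + 1))
      (x : GQ → Fin 2 → Rj (j + 1)), n ≤ j + 1 ∧ Ev p ∧ Pr (t.a j) (b.S ∪ t.T j) b.c Q u ∧
      Cl Q u v (db (t.a j) (cj _ ∘ b.gp)) ∧ Cl Q u w x ∧ Ch ⊤ (t.a j) x (cu t j c (M j) (y j)) ∧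
      Q.map p = Q₀.map (toZModPow n) ∧ p ∘ v = toZModPow n ∘ v₀ ∧ p ∘ w = toZModPow n ∘ w₀

/-! ## rows -/

/-- the choice of the symbol -/
def GAM : Prop := ∀ N G a A B w I x y, RN N G a → ParY N a A B w I x y →
  (∃ γ, Gam N I A B γ) ∧ ∃ x' y' : FF, cv x' = x ∧ cv y' = y

/-- framed cocycles in the corestricted classes -/
def FRM : Prop := ∀ (n : ℕ) (ρ : GQ →* M2 (Zn n)) S a Ad y, Gr ρ S a Ad → Raw ρ S a Ad y →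
  ∀ g₀ ∈ Ha, ∀ M (R : Type) [CommRing R] (ι : Zn n →+* R) (Ψ : GQ →* R) (T : Finset ℕ) c (k : ℕ),
    Ad M → pp ∣ M → M.primeFactors ⊆ T → Cd M Ψ → (∀ g, Ψ g ^ pp ^ k = 1) →
    (∀ v, (ρ g₀ - 1).det ^ 2 * v = 0 → ι v = 0) → IsConj c → (∀ l P, Ov l P → l ∉ T → Ug ρ l P) →
    ∃ x ∈ Zq R T (aa ρ ι Ψ) c, Ch ⊤ (aa ρ ι Ψ) x (cor ρ ι Ψ (Hm M) (y M))

/-- the product of the local factors at level `j` -/
def Ej (t : Tw b) (j : ℕ) : Rj (j + 1) := ∏ p ∈ sp b, (b.E p).eval₂ (cj (j + 1))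
  (mj (j + 1) (1 + X) ^ (t.e j (b.pl.σ p)).val)

/-- **Kato's classes** -/
def ZETA (Kz : KZ) : Prop := ∀ (X : Mdl) N G a A B w I (x y : FF)
  (h : ParY N a A B w I (cv x) (cv y)) (γ : SL(2, ℤ)) (n : ℕ), RN N G a → 0 < n →
  ∃ z : Fy n, Zy (rj (hq h.disc) n) N a z ∧ ∀ c, Sm N c → Zk Kz X h.disc x y γ N c z

/-- **the reciprocity laws for the bottom class** -/
def RR (Kz : KZ) : Prop := ∀ (X : Mdl) N G a A B w I (x y : FF)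
  (h : ParY N a A B w I (cv x) (cv y)) γ (b : Bs) (c : ℕ) (g₀ : GQ), RN N G a → Gam N I A B γ →
  Mb h.disc N a b → Sm N c → c ∉ b.S → g₀ ∈ Ha →
  ∃ (P : Ideal (𝓞 Qb)) (ι : Qb →+* ℂ_[pp]) (lg : Fx A B (dec P) →+ K) (ρ : ℚ) (m₀ : ℕ),
    Ov pp P ∧ Ind ι P ∧ Lk ι lg ∧ P014T.Rk.Lw (al A B) (cS b.S 1) = ρ * w0 A B ∧
    ∀ (k : ℤ) m n n' (f : Zn n' →+* Zn n) M (z : Fy n') v, m₀ ≤ m → n ≤ n' → 0 < n' →
      Lv n' N b.S M → Zy (b.ρ n') N a z → Zk Kz X h.disc x y γ N c z → Xz b g₀ f M (z ∅ c M) v →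
      Zr h.disc b.S b.c P ι lg (k * (dl b g₀ ^ 2 * s0 c)) ρ m n (cz (co (hq h.disc) n) (k • v))

/-- the local factors from the compatibility -/
def LGB : Prop := ∀ (A B : ℤ) (h : El A B) N G a (e : ℤ) S c (gp v y : Fin 2 → ℤ_[pp]) (pl : Pl),
  RN N G a → (∀ p : ℕ, p.Prime → ¬ p ∣ fl * pp → Lp h N a p) → (2 ∣ fl → Top.E2 h e) →
  Pm S → Bad A B N a S → IsConj c →
  1 + X4M.TE.mt (hq h) c = vecMulVec gp v → y ⬝ᵥ gp = 1 → X4M.TE.mt (hq h) c *ᵥ gp = gp →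
  ∃ b : Bs, Mb h N a b ∧ b.S = S ∧ ∃ e' : ℤ, ek b = e' ∧ e' ∣ e

/-- the towers -/
def TWR : Prop := ∀ (A B : ℤ) (h : El A B) N a (b : Bs) (c : ℕ) (N₀ : ℕ → ℕ), Mb h N a b →
  c.Prime → c ∉ b.S → ∃ t : Tw b, (∀ j, N₀ j ≤ t.N j) ∧ Tx t c ∧ Mz t

/-- **the unit class is the Euler factor times the primitive class** -/
def RLC : Prop := ∀ (b : Bs) N a (t : Tw b) (c : ℕ) (g₀ : GQ) (M : ℕ → ℕ) (y : ∀ j, Fy (t.N j)),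
  Lf N a b → Sm N c → c ∉ b.S → Tx t c → g₀ ∈ Ha → (∀ j, Lv (t.N j) N b.S (M j)) →
  (∀ j, Zy (b.ρ (t.N j)) N a (y j)) → ∃ (x : t.Es) (k : ℤ), k ≠ 0 ∧ ∀ j,
    ∃ x₂ ∈ Zq (Rj (j + 1)) (b.S ∪ t.T j) (t.a j) b.c, Ch ⊤ (t.a j) x₂ (2 • x.cl j) ∧
      ∀ x₁ ∈ Zq (Rj (j + 1)) (b.S ∪ t.T j) (t.a j) b.c, Ch ⊤ (t.a j) x₁ (cu t j c (M j) (y j)) →
        ∃ l : Rj (j + 1), cj (j + 1) (4 * k * dl b g₀ ^ 2 * s0 c) • x₁ =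
          (2 * sm (t.Ψ j) (b.pl.σ c) c * Ej t j) • x₂ + l • db (t.a j) (cj _ ∘ b.gp)

/-- descent to the bottom class -/
def DSC : Prop := ∀ (A B : ℤ) (h : El A B) N a (b : Bs) (t : Tw b) (c : ℕ) (g₀ : GQ),
  Mb h N a b → Sm N c → c ∉ b.S → Tx t c → g₀ ∈ Ha → ∀ j,
  (∀ l ∈ t.T j, l.Prime ∧ l ∉ b.S ∧ ¬ (pp : ℤ) ^ t.m ∣ nq A B l) ∧
  ∀ M (y : Fy (t.N j)) n (p : Rj (j + 1) →+* Zn n) v, Lv (t.N j) N b.S M →
    Zy (b.ρ (t.N j)) N a y → Ev p → Xz b g₀ (p.comp (t.ι j)) M (y ∅ c M) v →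
    ∀ x₁ ∈ Zq (Rj (j + 1)) (b.S ∪ t.T j) (t.a j) b.c, Ch ⊤ (t.a j) x₁ (cu t j c M y) →
      ∃ (k : ℤ) (l : Zn n), ¬ (pp : ℤ) ∣ k ∧ (∏ q ∈ t.T j, nq A B q) • 2 • v =
        k • (fun g => p ∘ (cj (j + 1) (2 * dl b g₀ ^ 2) • x₁ g)) +
          l • db (fun g => (t.a j g).map p) (toZModPow n ∘ b.gp)

/-- from matrices to points -/
def FIN : Prop := ∀ (A B : ℤ) (h : El A B) N a (b : Bs)
  (S : Finset ℕ) (R : Type) [CommRing R] (α : GQ → M2 R) (r n : ℕ)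
  (Q : Matrix (Fin r) (Fin (r + 2)) R) u (v w : Fin (r + 2) → R) (gp : Fin 2 → R) x
  (p : R →+* Zn n) (Q₀ : Matrix (Fin r) (Fin (r + 2)) ℤ_[pp]) (v₀ w₀ : Fin (r + 2) → ℤ_[pp])
  (β : ℤ_[pp]) (k : ℤ) (l : Zn n), Mb h N a b → Pr α S b.c Q u → Cl Q u v (db α gp) → Cl Q u w x →
  (∀ g, (α g).map p = b.ρ n g) → p ∘ gp = toZModPow n ∘ b.gp →
  Q.map p = Q₀.map (toZModPow n) → p ∘ v = toZModPow n ∘ v₀ → p ∘ w = toZModPow n ∘ w₀ →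
  Q₀ *ᵥ v₀ = 0 → Q₀ *ᵥ w₀ = 0 →
  (∀ C, (C * Ba.cl v₀ w₀).det = β * (Ba.st finSumFinEquiv.symm Q₀ C).det) → ¬ (pp : ℤ) ∣ k →
  Mc A B b.c S n (cz (co (hq h) n) (k • (fun g => p ∘ x g) +
    l • db (fun g => (α g).map p) (toZModPow n ∘ b.gp))) β

/-- the Iwasawa side -/
def CORE : Prop := ∀ (b : Bs) N a c g₀ (t : Tw b), Tx t c → Lf N a b → Sm N c → c ∉ b.S →
  g₀ ∈ Ha → dl b g₀ ≠ 0 → Mz t → Hi t g₀ → ∀ M (y : ∀ j, Fy (t.N j)),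
  (∀ j, Lv (t.N j) N b.S (M j)) → (∀ j, Zy (b.ρ (t.N j)) N a (y j)) → ∃ α, Co1 t c M y (ek b) α

/-- zeta elements -/
def KTW (Kz : KZ) : Prop := ∀ (X : Mdl) N G a A B w I (x y : FF)
  (h : ParY N a A B w I (cv x) (cv y)) γ (b : Bs) (c : ℕ) (g₀ : GQ)
  (t : Tw b) (M : ℕ → ℕ) (z : ∀ j, Fy (t.N j)) (e : ℤ) (α : ℤ_[pp]), RN N G a → Gam N I A B γ →
  Mb h.disc N a b → Sm N c → c ∉ b.S → g₀ ∈ Ha → dl b g₀ ≠ 0 →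
  Tx t c → Hi t g₀ → (∀ j, Lv (t.N j) N b.S (M j)) → (∀ j, Zy (b.ρ (t.N j)) N a (z j)) →
  (∀ j, Zk Kz X h.disc x y γ N c (z j)) → e ≠ 0 → Co1 t c M z e α →
  Top.Kt h.disc b.S ((α : ℚ_[pp]) / e)

end Ct

end Vale.Agent.P014U
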