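import Vale.Agent.P014T.Ct.Frm
import Vale.Agent.P014U.Dr.Shp
import Vale.Agent.P014U.Ct.St

/-! # P014U, block C-TOP: row FRM, framed cocycles in the corestricted classes -/

set_option autoImplicit false
set_option linter.all false

open Matrix

noncomputable section

namespace Vale.Agent.P014U.Ct

open Vale.Agent.P022 (GQ IsConj)
open Vale.Agent.P022E.GW (Ov)
open Vale.Agent.P004F (M2)
open Dr
open P014T.Pq (Zq)
open P014T.Ba.Tt (conj_out conj_sq)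
open P014T.Ct.Fr (cr_fr ex_ring)

variable [Pp]

theorem frm0 (n : ℕ) (ρ : GQ →* M2 (Zn n)) (S a Ad y) (G : Gr ρ S a Ad) (Ra : Raw ρ S a Ad y)
    (g₀ : GQ) (hg : g₀ ∈ Ha) (M : ℕ) (R : Type) [CommRing R] (ι : Zn n →+* R) (Ψ : GQ →* R)
    (T : Finset ℕ) (c : GQ) (k : ℕ) (m : Ad M) (d4 : pp ∣ M) (pf : M.primeFactors ⊆ T) (cd : Cd M Ψ)
    (h : ∀ g, Ψ g ^ pp ^ k = 1) (an : ∀ v, (ρ g₀ - 1).det ^ 2 * v = 0 → ι v = 0) (hc : IsConj c)
    (ug : ∀ l P, Ov l P → l ∉ T → Ug ρ l P) :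
    ∃ x ∈ Zq R T (aa ρ ι Ψ) c, Ch ⊤ (aa ρ ι Ψ) x (cor ρ ι Ψ (Hm M) (y M)) := by
  obtain ⟨A, _, j, Φ, p, p', q1, -, q2, -, one, -, kl⟩ := ex_ring ι Ψ Ψ fun g => by simp
  obtain ⟨z, E, hz⟩ := shp n ρ S a Ad y G Ra g₀ hg
  have d : Cd M Φ := fun g b => one g (cd g b) (cd g b)
  obtain ⟨co, ⟨w, ch⟩, -⟩ := hz M A j Φ m d
  have o := Hm_open (G.pos M m)
  have := (Hm M).quotient_finite_of_isOpen o
  have := Fintype.ofFinite (GQ ⧸ Hm M)
  obtain ⟨v, hv, W, o1, l1⟩ := cr_fr ((Ra.co M m).lfp (ι := j) d) o (conj_sq hc)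
    fun b => conj_out hc two_lt (Hm_le d4 b)
  obtain ⟨W', o2, l2⟩ := co.lc
  have mv g (u : Fin 2 → A) : aa ρ ι Ψ g *ᵥ (p ∘ u) = p ∘ (aa ρ j Φ g *ᵥ u) := funext fun i => by
    rw [← q1, ← q2, ← aa_map]; exact (p.map_mulVec _ u i).symm
  have z0 : p ∘ (0 : Fin 2 → A) = 0 := funext fun _ => p.map_zero
  refine ⟨fun g => p ∘ (cor ρ j Φ (Hm M) (y M) g - (aa ρ j Φ g *ᵥ v - v)), ⟨fun g g' => ?_,
    ⟨W ⊓ W', o1.inter o2, fun g b => ?_⟩, fun i ⟨l, b, P, ov, hi⟩ => ?_, ?_⟩, p ∘ (-v), fun g _ => ?_⟩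
  · show p ∘ _ = p ∘ _ + aa ρ ι Ψ g *ᵥ _
    rw [mv, co.coc g trivial g' trivial, aa_mul, ← mulVec_mulVec, mulVec_sub, mulVec_sub]
    funext i
    simp only [Function.comp, Pi.add_apply, Pi.sub_apply, map_add, map_sub]
    ring
  · show p ∘ _ = 0
    rw [l2 g b.2 trivial, show aa ρ j Φ g *ᵥ v = v from l1 g b.1, sub_self, sub_self, z0]
  · have e := d i (inert_Hm ov (fun q => b (pf (Nat.mem_primeFactors.2 ⟨ov.1, q, G.pos M m⟩))) hi)
    have r := aa_eq_one (ι := j) ((ug l P ov b).unr i hi) e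
    have := ch i trivial
    rw [unr0 G E m d (fun g => nil_of_pow (nil2 j) (k := k) (by
      rw [← map_pow]; exact one _ (by rw [map_pow, h g]) (by rw [map_pow, h g])))
      (ug l P ov b) hi e, r, one_mulVec, sub_self, zero_sub, neg_eq_zero, ← map_pow] at this
    show p ∘ _ = 0
    rw [r, one_mulVec, sub_self, sub_zero]
    exact funext fun i => (kl _ an _ (congrFun this i)).1
  · show p ∘ _ = 0
    rw [show cor ρ j Φ (Hm M) (y M) c = _ from hv, show am ρ j Φ c = aa ρ j Φ c from rfl, sub_self, z0]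
  · have e : p ∘ cor ρ j Φ (Hm M) (y M) g = cor ρ ι Ψ (Hm M) (y M) g := funext fun i => by
      simp only [cor, finsum_eq_sum_of_fintype, Function.comp, Finset.sum_apply, map_sum,
        RingHom.map_mulVec, aa_map, q1, q2]
      rw [← q1]; rfl
    rw [mv, ← e, mulVec_neg]
    funext i
    simp only [Function.comp, Pi.neg_apply, Pi.sub_apply, map_neg, map_sub]
    ring

/-- **row FRM** -/
theorem frm : FRM := fun n ρ S a Ad y G Ra g₀ hg M R _ => frm0 n ρ S a Ad y G Ra g₀ hg M R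

end Vale.Agent.P014U.Ct
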