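import Vale.Agent.P014U.Ct.St
import Vale.Agent.P014T.Ct.Gam

/-! # P014U, block C-TOP: the choice of the symbol (helper64) -/

set_option autoImplicit false
set_option linter.all false

namespace Vale.Agent.P014U.Ct

open Vale.Agent.P027M.M (Mdl mkF)
open Vale.Agent.P014T
open Vale.Agent.P014T.Es (sy LL)
open Vale.Agent.P014T.Rc (Vol shape sy_bad)
open Vale.Agent.P014T.Top (w0)
open P004N (RN)
open scoped MatrixGroups UpperHalfPlane

export Vale.Agent.P014T.Ct (ex_mdl)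

/-- a good symbol whose imaginary coordinate is not divisible by `q` -/
theorem gam0 {N : ℕ} {G a A B w I x y} (r : RN N G a) (p : Pu.ParY N a A B w I x y) {q : ℕ}
    (hq : q ≠ 1) : ∃ (γ : SL(2, ℤ)) (μ : ℤ) (c : ℝ), ¬ (N : ℤ) ∣ γ 1 0 ∧ ¬ (N : ℤ) ∣ γ 1 1 ∧
      ¬ (q : ℤ) ∣ μ ∧ 0 < c ∧ Vol (LL I) c ∧ (sy I γ).im * w0 A B = μ * c := by
  obtain ⟨t, v, u0, v0, h⟩ := shape p
  obtain ⟨A', B', Λ, x', y', s⟩ := p.par
  have vol : Vol (LL I) (w0 A B * v) := ⟨_, _, h, by simp [abs_of_pos, u0, v0]⟩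
  by_contra! c
  have k : ∀ z ∈ Submodule.span ℤ (Set.range (sy I)), ∃ k : ℤ, z.im = q * k * v := fun z m => by
    induction m using Submodule.span_induction with
    | mem _ k =>
      obtain ⟨γ, rfl⟩ := k
      by_cases b : (N : ℤ) ∣ γ 1 0 ∨ (N : ℤ) ∣ γ 1 1
      · exact ⟨0, by simp [sy_bad r p b]⟩
      obtain ⟨m, n, e⟩ := (h _).1 (Es.sy_mem I γ)
      have e' : (sy I γ).im = n * v := by simp [e]
      obtain ⟨k, rfl⟩ : (q : ℤ) ∣ n := by_contra fun o => c γ n _ (not_or.1 b).1 (not_or.1 b).2 o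
        (mul_pos u0 v0) vol (by rw [e']; ring)
      exact ⟨k, by rw [e']; push_cast; ring⟩
    | zero => exact ⟨0, by simp⟩
    | add _ _ _ _ i j =>
      obtain ⟨i, e⟩ := i
      obtain ⟨j, e'⟩ := j
      exact ⟨i + j, by rw [Complex.add_im, e, e']; push_cast; ring⟩
    | smul n _ _ i =>
      obtain ⟨i, e⟩ := i
      exact ⟨n * i, by rw [zsmul_eq_mul, Complex.mul_im, e]; simp; ring⟩
  obtain ⟨j, e⟩ := k (t + v * Complex.I) (Es.manin r s ▸ (h _).2 ⟨0, 1, by simp⟩)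
  have : ((q * j : ℤ) : ℝ) = (1 : ℤ) := mul_right_cancel₀ v0.ne' (by simpa using e.symm)
  exact hq (Nat.dvd_one.1 (Int.natCast_dvd_natCast.1 ⟨j, (Int.cast_injective this).symm⟩))

theorem gam [Pp] : GAM := fun _ _ _ _ _ _ _ x y r p =>
  let ⟨γ, k, v, g0, g1, o, _, vol, e⟩ := gam0 r p one_lt.ne'
  ⟨⟨γ, g0, g1, v, k, vol, o, e⟩, mkF x (Pu.Rq.fs r.pos p.xm p.xq), mkF y (Pu.Rq.fs r.pos p.ym p.yq),
    rfl, rfl⟩

end Vale.Agent.P014U.Ct
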