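import Vale.Agent.P014T.Ct.Ktw
import Vale.Agent.P014U.Ct.St
import Vale.Agent.P014U.Pp.Rn0
import Vale.Agent.P014U.Pg.Bas

/-! # P014U, block C-TOP, row KTW: from the identity in the limit to the zeta elements -/

set_option autoImplicit false
set_option linter.all false

open NumberField Matrix PowerSeries
open scoped Classical

noncomputable section

namespace Vale.Agent.P014U.Ct

open Vale.Agent.P022 (Qb GQ)
open Vale.Agent.P022E.GW (Ov)
open Vale.Agent.P004F (M2)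
open X4F (Rj cj)
open PadicInt (toZModPow)
open Dr (Zn Gr Ug)
open P014T.Pq (Zq)
open Pp (Bs Tw)
open P014T.Rc (KZ)
open P014T.Ct.B0 (zq_smul ch_smul)
open P014T.Ct.Kw (det_sm)

variable [Pp] [Fl]

namespace Kw

variable {N c n : ℕ} {a : ℕ → ℤ} {b : Bs}

omit [Fl] in
theorem ev_cj {j : ℕ} {p : Rj j →+* Zn n} (e : Ev p) (y : ℤ_[pp]) : p (cj j y) = toZModPow n y :=
  (e _).trans (by rw [constantCoeff_C])

omit [Fl] in
theorem ev_a {t : Tw b} {j : ℕ} {p : Rj (j + 1) →+* Zn n} (e : Ev p) (g : GQ) :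
    (t.a j g).map p = b.ρ n g := by
  have k : p (t.Ψ j g) = 1 := by
    rw [t.hΨ, b.one, map_one, one_mul, map_pow, e]
    simp
  rw [t.a_eq, Matrix.map_smul' _ _ _ (map_mul _), k, one_smul]
  exact Matrix.ext fun i l => ev_cj e _

theorem ug (L : Lf N a b) (n : ℕ) {l : ℕ} {P : Ideal (𝓞 Qb)} (o : Ov l P) (h : l ∉ b.S) :
    Ug (b.ρ n) l P :=
  have l2 : l ≠ pp := fun e => h (e ▸ b.two)
  ⟨o, l2, fun i m => (congrArg (toZModPow n).mapMatrix
      ((L.gd l P o fun s => (h s).elim).1 i m)).trans (map_one _),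
    fun φ f => ((toZModPow n).map_det _).symm.trans ((congrArg _ ((b.det φ).trans
      (Pg.cz_fb o l2 f))).trans (map_natCast _ _))⟩

theorem gr (L : Lf N a b) (n : ℕ) (hc : c.Prime) : Gr (b.ρ n) (insert c b.S) a (Aq n N ∅ c) := by
  have k : ∀ {M l : ℕ}, Aq n N ∅ c M → l ≠ 0 → l.Coprime c → Aq n N ∅ c (M * l) :=
    fun m p e => ⟨mul_ne_zero m.1 p, m.2.1.mul_right _, m.2.2.1.mul_right _,
      Nat.Coprime.mul_left m.2.2.2.1 e, by simp⟩
  have s : ∀ {l}, l ∉ insert c b.S → l ∉ b.S := fun m e => m (Finset.mem_insert_of_mem e)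
  refine ⟨Finset.mem_insert_of_mem b.two, fun l P o m => (ug L n o (s m)).unr, fun l P φ o m f =>
    ⟨(ug L n o (s m)).det φ f, ?_⟩, fun M m => m.1, fun M m => k m pp_ne
      (m.2.2.2.1.coprime_dvd_left (((dvd_pow_self _ n.succ_ne_zero).mul_left _).trans m.2.1)),
    fun M l m p e _ => k m p.ne_zero ((Nat.coprime_primes p hc).2 fun r =>
      e (r ▸ Finset.mem_insert_self _ _))⟩
  rw [← map_intCast (toZModPow n), ← (L.gd l P o fun e => (s m e).elim).2 φ f]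
  exact (AddMonoidHom.map_trace (toZModPow n) _).symm

omit [Fl] in
theorem s0_ne (h : Sm N c) : s0 c ≠ 0 := by
  refine pow_ne_zero _ (sub_ne_zero.2 fun e => ?_)
  have e : c ^ 2 = c := by exact_mod_cast e
  have := h.2.1
  nlinarith

end Kw

open Kw in
/-- **the zeta elements** -/
theorem ktw {Kz : KZ} (rr : RR Kz) (frm : FRM) (dsc : DSC) (fin : FIN) : KTW Kz := by
  intro X N G a A B w I x y h γ b c g₀ t M z ε α rn gam mb sc cS hg d0 tx hi lv zy zk e0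
    ⟨r, Q₀, v₀, w₀, k1, k2, hC, o⟩
  obtain ⟨P, ι, lg, ρ, m₀, o1, o2, o3, o4, hr⟩ := rr X N G a A B w I x y h γ b c g₀ rn
    gam mb sc cS hg
  refine ⟨b.c, P, ι, lg, (2 * ε : ℤ) * (dl b g₀ ^ 2 * s0 c), ρ, max m₀ t.m, b.cc, o1, o2, o3,
    mul_ne_zero (Int.cast_ne_zero.2 (mul_ne_zero two_ne_zero e0)) (mul_ne_zero
    (pow_ne_zero 2 d0) (s0_ne sc)), o4, fun n => ?_⟩
  obtain ⟨j, p, Q, u, v, w', x₁, le, ev, a1, a2, a3, a5, rQ, rv, rw'⟩ := o n
  have tN := t.le j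
  have a4 : x₁ ∈ Zq (Rj (j + 1)) (b.S ∪ t.T j) (t.a j) b.c :=
    (funext a3.2 : (fun g => u g *ᵥ w') = x₁) ▸ (a1 _).mapsTo a3.1
  obtain ⟨z', hz, ch⟩ := frm _ _ _ a _ _ (gr mb.lf (t.N j) sc.1)
    ((zy j).raw _ _ _ (by simp [Dx]) sc (Finset.mem_insert_self _ _) (Finset.empty_subset _))
    g₀ hg (M j) (Zn n) (p.comp (t.ι j)) 1 b.S b.c 0
    ⟨(lv j).ne, (lv j).two, (lv j).dv, ((Nat.Prime.coprime_iff_not_dvd sc.1).2 fun d =>
      cS ((lv j).pf ▸ Nat.mem_primeFactors.2 ⟨sc.1, d, (lv j).ne⟩)).symm, by simp⟩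
    (((dvd_pow_self _ (t.N j).succ_ne_zero).mul_left _).trans (lv j).two) (lv j).pf.le
    (fun _ _ => rfl) (fun g => one_pow _)
    (fun v e => (congrArg p (hi j v e)).trans (map_zero p)) b.cc fun l P o s => ug mb.lf _ o s
  have xz : Xz b g₀ (p.comp (t.ι j)) (M j) (z j ∅ c (M j)) (toZModPow n (dl b g₀ ^ 2) • z') :=
    ⟨zq_smul _ hz, ch_smul _ ch⟩
  obtain ⟨r1, r2, r3, r4⟩ := hr (2 * ε) (max m₀ t.m) n _ _ _ _ _ (le_max_left _ _) (by omega)
    (by omega) (lv j) (zy j) (zk j) xz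
  obtain ⟨b1, b2⟩ := dsc A B h.disc N a b t c g₀ mb sc cS tx hg j
  obtain ⟨k, l, ok, e⟩ := b2 _ _ n p _ (lv j) (zy j) ev xz _ a4 a5
  have mc := fin A B h.disc N a b _ _ (t.a j) r n Q u v
    (cj (j + 1) (2 * dl b g₀ ^ 2 * ε) • w') (cj _ ∘ b.gp) (cj (j + 1) (2 * dl b g₀ ^ 2 * ε) • x₁) p
    Q₀ v₀ ((2 * dl b g₀ ^ 2 * ε) • w₀) (2 * dl b g₀ ^ 2 * s0 c * α) k (ε * l) mb a1 a2
    ⟨by rw [mulVec_smul, a3.1, smul_zero], fun g => by rw [mulVec_smul, a3.2]; rfl⟩ (ev_a ev)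
    (funext fun i => ev_cj ev _) rQ rv
    (funext fun i => (map_mul p _ _).trans ((congrArg₂ _ (ev_cj ev _) (congrFun rw' i)).trans
      (map_mul (toZModPow n) _ _).symm))
    k1 (by rw [mulVec_smul, k2, smul_zero]) (fun C => by rw [mul_smul, det_sm, hC]; ring) ok
  have e' : (∏ q ∈ t.T j, Top.nq A B q) • (2 * ε) • toZModPow n (dl b g₀ ^ 2) • z' =
      k • (fun g => p ∘ (cj (j + 1) (2 * dl b g₀ ^ 2 * ε) • x₁) g) +
        (ε * l) • db (fun g => (t.a j g).map p) (toZModPow n ∘ b.gp) := by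
    rw [mul_comm 2 ε, mul_smul, smul_comm _ ε, show (2 : ℤ) • toZModPow n (dl b g₀ ^ 2) • z' =
      2 • toZModPow n (dl b g₀ ^ 2) • z' from ofNat_zsmul .., e, smul_add, mul_smul (ε : Zn n),
      Int.cast_smul_eq_zsmul, smul_comm ε]
    refine congrArg (k • · + _) (funext fun g => funext fun i => ?_)
    simp only [Pi.smul_apply, Function.comp, smul_eq_mul, map_mul, map_intCast, zsmul_eq_mul]
    ring
  refine ⟨_, r1, r2, r3, r4, t.T j, (tx.crd j).trans (le_max_right _ _), fun q m => ⟨(b1 q m).1,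
    (b1 q m).2.1, fun e => (b1 q m).2.2 ((pow_dvd_pow _ (le_max_right _ _)).trans e)⟩,
    fun g hg' s i h1 h2 h3 => ?_⟩
  rw [← map_zsmul, e'] at h3 ⊢
  obtain ⟨m1, m2⟩ := mc g hg' s i (by omega) (by omega) h3
  refine ⟨m1.trans (Nat.mul_le_mul_left _ (Nat.pow_le_pow_right pp_pos (by omega))), m2.trans ?_⟩
  have : (ε : ℚ_[pp]) ≠ 0 := Int.cast_ne_zero.2 e0
  rw [← PadicInt.padic_norm_e_of_padicInt]
  refine congrArg (fun x : ℚ_[pp] => _ * ‖x‖) ?_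
  push_cast
  field_simp

end Vale.Agent.P014U.Ct
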