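import Vale.Agent.P014U.Ct.Gl0
import Vale.Agent.P014U.Pp.Glk
import Vale.Agent.P014U.Pp.Gs
import Vale.Agent.P014U.Pq.All
import Vale.Agent.P014U.X4F.Pat.Vec
import Vale.Agent.P014T.Ba.Lrl

/-! # P014U, block C-TOP: the Iwasawa side -/

set_option autoImplicit false
set_option linter.all false

open Matrix Filter PowerSeries Set

noncomputable section

namespace Vale.Agent.P014U.Ct

open Vale.Agent.P022 (GQ)
open Vale.Agent.P004F (M2)
open X4F (La Rj cj mj)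
open X4F.Pat (U Sy U_bdd U_ch U_ge rk rs)
open PadicInt (toZModPow toZMod)
open Dr (Ha Hm Ch Cd Gr Hm_le Hm_open aa_eq_one)
open P014T.Pq (Zq Gd)
open Pp (Bs Tw PATQ Pz)
open Ba (rd st cl)
open P014T.Pp.Lr (col det_rel)

namespace Lm

theorem cob_mem {R : Type} [CommRing R] {T : Finset ℕ} {c : GQ} {a : GQ → M2 R} (G : Gd ⊤ T a)
    {p : Fin 2 → R} (fix : a c *ᵥ p = p) : db a p ∈ Zq R T a c :=
  ⟨fun g g' => by
    show _ *ᵥ _ = _ *ᵥ _ + a g *ᵥ _ *ᵥ _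
    rw [mulVec_mulVec, ← add_mulVec, G.mul g trivial g' trivial, mul_sub_one, sub_add_sub_cancel'],
    G.lc.imp fun W e => ⟨e.1, fun w a => by simp [db, e.2 w trivial a]⟩,
    fun g a => by simp [db, G.unr g trivial a],
    by simp only [db, sub_mulVec, fix, one_mulVec, sub_self]⟩

variable [Pp]

/-! ## limits -/

section

variable {I : Type} {R : ℕ → Type} [∀ j, CommRing (R j)] {p : ∀ j, La →+* R j} (hp : Sy p)

theorem um_cl (v w : ∀ j, I → R j) : hp.um (fun j => cl (v j) (w j)) = cl (hp.uv v) (hp.uv w) :=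
  Matrix.ext fun a i => by fin_cases i <;> rfl

theorem lim_det [Fintype I] [DecidableEq I] {v w w' : ∀ j, I → R j} {α β : ∀ j, R j}
    (k : ∀ᶠ j in U, ∃ l : R j, α j • w j = β j • w' j + l • v j) (C : Matrix (Fin 2) I La) :
    hp.ur α * (C * cl (hp.uv v) (hp.uv w)).det = hp.ur β * (C * cl (hp.uv v) (hp.uv w')).det := by
  obtain ⟨l, e⟩ := U_ch k
  refine det_rel (l := hp.ur l) ?_ C
  rw [← hp.uv_smul, ← hp.uv_smul, ← hp.uv_smul, ← hp.uv_add]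
  exact hp.uv_ae e

end

/-! ## presentations -/

theorem b_gd (b : Bs) : Gd ⊤ b.S fun g => (b.r g).map toZMod := by
  refine ⟨isOpen_univ, inferInstance, b.pr, ?_, fun g _ h _ => by rw [map_mul, Matrix.map_mul],
    ⟨(b.ρ 1).ker, b.lc 1, fun g _ m => ?_⟩, fun g _ ⟨l, m, P, o, i⟩ => ?_⟩
  · rw [map_one, Matrix.map_one _ (map_zero _) (map_one _)]
  · let f := ZMod.castHom (dvd_pow_self pp one_ne_zero) (ZMod pp)
    exact (Matrix.ext fun a a' => Pp.G0.uq Pp.G0.nilp toZMod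
      (f.comp (toZModPow 1)) (b.r g a a')).trans ((congrArg f.mapMatrix m).trans (map_one _))
  · rw [(b.unr l P g o m i).1, Matrix.map_one _ (map_zero _) (map_one _)]

variable {b : Bs} {N c r : ℕ} {a : ℕ → ℤ} {g₀ : GQ}

theorem cd_c (t : Tw b) (j : ℕ) : Cd (t.c j) (t.Ψ j) := fun g k => by
  rw [G0.psi_eq, (t.tq j).ker g k, ZMod.val_zero, pow_zero]

theorem t_gd (t : Tw b) (j : ℕ) : Gd ⊤ (b.S ∪ t.T j) (t.a j) := by
  refine ⟨isOpen_univ, inferInstance, fun l m => (Finset.mem_union.1 m).elim (b.pr l)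
    Nat.prime_of_mem_primeFactors, map_one _, fun g _ h _ => map_mul _ g h,
    ⟨(b.ρ (t.N j)).ker ⊓ Hm (t.c j), (b.lc _).inter (Hm_open (t.tq j).sq.ne_zero),
      fun g _ m => aa_eq_one m.1 (cd_c t j g m.2)⟩, fun g _ ⟨l, m, P, o, i⟩ => ?_⟩
  rw [Finset.mem_coe, Finset.mem_union, Pp.G0.mem_T o.1, not_or, not_or] at m
  rw [t.a_eq, G0.psi_eq, (b.unr l P g o m.1 i).1, (t.tq j).ine o m.2.1 i]
  simp

theorem res (t : Tw b) (j : ℕ) (g : GQ) : (t.a j g).map (rk j) = (b.r g).map toZMod := by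
  have e : rk j (mj _ (1 + X)) = 1 := by
    show rs _ = _
    simp [rs]
  rw [t.a_eq, Matrix.map_smul' _ _ _ (map_mul _), G0.psi_eq, map_pow, e, one_pow, one_smul]
  exact Matrix.ext fun _ _ => show rs (C _) = _ by simp [rs]

theorem a_c (t : Tw b) (j : ℕ) : t.a j b.c *ᵥ (cj _ ∘ b.gp) = cj _ ∘ b.gp := by
  rw [t.a_eq, G0.psi_eq, (t.tq j).cj _ b.cc, ZMod.val_zero, pow_zero, one_smul]
  exact funext fun i => ((cj _).map_mulVec _ b.gp i).symm.trans (by rw [b.fix]; rfl)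

/-- **presentations of bounded size** -/
theorem prs {t : Tw b} (x : Tx t c) : ∃ r₀ : ℕ, ∀ j, ∃ r ≤ r₀,
    ∃ (Q : Matrix (Fin r) (Fin (r + 2)) (Rj (j + 1))), ∃ u, Pr (t.a j) (b.S ∪ t.T j) b.c Q u := by
  obtain ⟨B, hB⟩ := Pq.bndq (b_gd b) b.two
  refine ⟨B + 2 * t.m, fun j => ?_⟩
  obtain ⟨r, Q, u, -, p, h3⟩ := Pq.presq (π := rk j) (by simp) (t_gd t j)
    (Finset.mem_union_left _ b.two) b.cc (.inr ⟨t.q j, Finset.mem_union_right _
      ((Pp.G0.mem_T (t.pq j).1).2 (.inr dvd_rfl)), fun e => (t.pq j).2.1 (e ▸ b.two), _,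
      b.pl.ov _ (t.pq j).1, fun g m => (res t j g).trans (t.spl j g m)⟩)
  simp only [res] at h3
  refine ⟨r, ?_, Q, u, p⟩
  have := h3.ge.trans (hB (t.T j) _ b.cc fun l => Nat.prime_of_mem_primeFactors)
  rw [Nat.pow_le_pow_iff_right one_lt, Fintype.card_fin] at this
  have := x.crd j
  omega

variable [Fl]

theorem aq {n M : ℕ} : Aq n N ∅ c M ↔ M ≠ 0 ∧ fl * pp ^ (n + 1) ∣ M ∧ N ∣ M ∧ M.Coprime c := by
  simp [Aq]

theorem gr (L : Lf N a b) (c1 : c.Prime) (c2 : c ∉ b.S) (n : ℕ) :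
    Gr (b.ρ n) (insert c b.S) a (Aq n N ∅ c) := by
  have k {l M} (p : l.Prime) (h : l ≠ c) (m : Aq n N ∅ c M) : Aq n N ∅ c (M * l) := by
    rw [aq] at m ⊢
    exact ⟨mul_ne_zero m.1 p.ne_zero, m.2.1.mul_right _, m.2.2.1.mul_right _,
      m.2.2.2.mul_left ((Nat.coprime_primes p c1).2 h)⟩
  have s {l} (h : l ∉ insert c b.S) : l ∉ b.S := fun m => h (Finset.mem_insert_of_mem m)
  exact ⟨Finset.mem_insert_of_mem b.two, fun l P o h => (Pp.Gk.ug b n l P o (s h)).unr,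
    fun l P φ o h f => ⟨(Pp.Gk.ug b n l P o (s h)).det φ f,
      (AddMonoidHom.map_trace (toZModPow n) _).symm.trans (by
        rw [(L.gd l P o fun m => absurd m (s h)).2 φ f, map_intCast])⟩, fun M m => m.1,
    fun M => k pp_prime fun e => c2 (e ▸ b.two),
    fun M l m p h _ => k p (fun e => h (e ▸ Finset.mem_insert_self ..)) m⟩

variable {t : Tw b} {M : ℕ → ℕ} {y : ∀ j, Fy (t.N j)}
  {Q : ∀ j, Matrix (Fin r) (Fin (r + 2)) (Rj (j + 1))}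
  {u : ∀ j, GQ → Matrix (Fin 2) (Fin (r + 2)) (Rj (j + 1))} {v w : ∀ j, Fin (r + 2) → Rj (j + 1)}

variable (t c M y) in
/-- the data at one level -/
def Dt (j : ℕ) (Q : Matrix (Fin r) (Fin (r + 2)) (Rj (j + 1)))
    (u : GQ → Matrix (Fin 2) (Fin (r + 2)) (Rj (j + 1))) (v w : Fin (r + 2) → Rj (j + 1)) : Prop :=
  Pr (t.a j) (b.S ∪ t.T j) b.c Q u ∧ Cl Q u v (db (t.a j) (cj _ ∘ b.gp)) ∧
    ∃ x, Cl Q u w x ∧ Ch ⊤ (t.a j) x (cu t j c (M j) (y j))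

theorem lim0 (h : ∀ᶠ j in U, Q j *ᵥ v j = 0) : Sy.succ.um Q *ᵥ Sy.succ.uv v = 0 :=
  (Sy.uv_mv ..).symm.trans ((Sy.succ.uv_ae h).trans Sy.succ.uv_zero)

theorem one (hP : PATQ) (h3 : RLC) (L : Lf N a b) (s : Sm N c) (c0 : c ∉ b.S) (x : Tx t c)
    (g0 : g₀ ∈ Ha) (d0 : dl b g₀ ≠ 0) (lv : ∀ j, Lv (t.N j) N b.S (M j))
    (zy : ∀ j, Zy (b.ρ (t.N j)) N a (y j)) (h : ∀ᶠ j in U, Dt c t M y j (Q j) (u j) (v j) (w j))
    {C₀ : Matrix (Fin 2) (Fin (r + 2)) La}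
    (h0 : rd (st finSumFinEquiv.symm (Sy.succ.um Q) C₀).det ≠ 0) : ∃ α, Co1 t c M y (ek b) α := by
  obtain ⟨z, k, k0, hz⟩ := h3 b N a t c g₀ M y L s c0 x g0 lv zy
  obtain ⟨w', h1⟩ := U_ch (P := fun j (w' : Fin (r + 2) → Rj (j + 1)) =>
      Pz z j (Q j) (u j) (cl (v j) w') ∧ ∃ l : Rj (j + 1), cj (j + 1) (4 * k * dl b g₀ ^ 2 * s0 c) • w j =
        (2 * sm (t.Ψ j) (b.pl.σ c) c * Ej t j) • w' + l • v j) (h.mono fun j ⟨p, hv, x₁, hw, k1⟩ => by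
    obtain ⟨x₂, m, k2, k3⟩ := hz j
    obtain ⟨w', w1, w2⟩ := (p _).surjOn m
    obtain rfl := funext hw.2
    obtain ⟨l, e⟩ := k3 _ ((p _).mapsTo hw.1) k1
    subst w2
    exact ⟨w', ⟨p, Ba.mul_cl hv.1 w1, hv.2, k2⟩, l, col (p _) hv.1 hw.1 w1 fun g =>
      (congrFun e g).trans (by rw [hv.2]; rfl)⟩)
  obtain ⟨γ, e1⟩ := hP b t z r Q u _ (h1.mono fun j a => a.1) C₀ h0
  have e2 := lim_det Sy.succ (h1.mono fun j a => a.2) C₀
  rw [um_cl, G0.ej_lim] at e1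
  rw [G0.ur_cj, show Sy.succ.ur (fun j => 2 * sm (t.Ψ j) (b.pl.σ c) c * Ej t j) =
    2 * Sy.succ.ur (fun j => sm (t.Ψ j) (b.pl.σ c) c) * Sy.succ.ur fun j => Ej t j by
      rw [← map_ofNat Sy.succ.ur 2, ← map_mul, ← map_mul]; rfl] at e2
  have hs := G0.sm_rd x s.1 fun e => c0 (e ▸ b.two)
  have s1 := G0.sm_zero t (b.pl.σ c) c
  have s2 := G0.ek_zero t
  generalize Sy.succ.ur (fun j => sm (t.Ψ j) (b.pl.σ c) c) = σ at *
  generalize G0.Ek t = ε at *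
  have τ0 : 4 * k * dl b g₀ ^ 2 * s0 c ≠ 0 := mul_ne_zero (mul_ne_zero (mul_ne_zero (by norm_num)
    (Int.cast_ne_zero.2 k0)) (pow_ne_zero _ d0)) (G0.s0_ne s)
  generalize 4 * k * dl b g₀ ^ 2 * s0 c = τ at *
  have e0 := det_rel (α := 1) (β := ε) (l := 0) (v := Sy.succ.uv v) (w := ε • Sy.succ.uv w)
    (w' := Sy.succ.uv w) (by simp) C₀
  obtain ⟨α, e3⟩ : C τ ∣ 2 * γ := Ba.un_dvd (e := τ.valuation) (by
      rw [X4F.Pat.two_C]
      exact map_dvd C ⟨↑(PadicInt.unitCoeff τ0)⁻¹, (Units.eq_mul_inv_iff_mul_eq _).2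
        ((mul_comm _ _).trans (PadicInt.unitCoeff_spec τ0).symm)⟩)
    (s := σ * (st finSumFinEquiv.symm (Sy.succ.um Q) C₀).det)
    (by rw [map_mul]; exact mul_ne_zero hs h0)
    ⟨(C₀ * cl (Sy.succ.uv v) (ε • Sy.succ.uv w)).det, by
      linear_combination -2 * σ * e1 - ε * e2 - C τ * e0⟩
  have e4 : (C₀ * cl (Sy.succ.uv v) (ε • Sy.succ.uv w)).det =
      σ * α * (st finSumFinEquiv.symm (Sy.succ.um Q) C₀).det :=
    mul_left_cancel₀ (fun e => τ0 (C_injective (e.trans C.map_zero.symm))) (by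
      linear_combination 2 * σ * e1 + ε * e2 + C τ * e0 +
        σ * (st finSumFinEquiv.symm (Sy.succ.um Q) C₀).det * e3)
  have q1 := lim0 (h.mono fun j a => a.2.1.1)
  have q2 := lim0 (h.mono fun j a => a.2.2.elim fun _ a => a.1.1)
  have q (z) (e : Sy.succ.um Q *ᵥ z = 0) : (Sy.succ.um Q).map constantCoeff *ᵥ (constantCoeff ∘ z) = 0 :=
    funext fun i => (RingHom.map_mulVec ..).symm.trans (by rw [e]; exact map_zero _)
  refine ⟨constantCoeff α, r, _, _, _, q _ q1, q _ q2, fun C₁ => ?_, fun n => ?_⟩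
  · have := congrArg constantCoeff (Ba.all_C _ _ (Ba.mul_cl q1 (by rw [mulVec_smul, q2, smul_zero]))
      (Ba.ne_of_rd h0) e4 (C₁.map C))
    have e : (C₁.map C).map (constantCoeff (R := ℤ_[pp])) = C₁ := Matrix.ext fun _ _ => constantCoeff_C _
    simp only [map_mul, s1, RingHom.map_det, RingHom.mapMatrix_apply, Matrix.map_mul, Ba.st_map, e] at this
    refine Eq.trans (congrArg (fun A => (C₁ * A).det) (Matrix.ext fun i k => ?_)) this
    fin_cases k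
    exacts [rfl, s2 ▸ (map_mul constantCoeff _ _).symm]
  · obtain ⟨j, ⟨⟨⟨⟨p1, p2, x₁, p3, p4⟩, a1⟩, a2⟩, a3⟩, a4⟩ := ((((h.and (G0.ev_um n Q)).and
      (G0.ev_vec n v)).and (G0.ev_vec n w)).and (U_ge n)).exists
    obtain ⟨p, hp⟩ := G0.ex_ev (a4.trans j.le_succ)
    exact ⟨j, p, _, _, _, _, x₁, a4.trans j.le_succ, hp, p1, p2, p3, p4, a1 p hp, a2 p hp, a3 p hp⟩

end Lm

open Lm

/-- **the Iwasawa side** -/
theorem core [Pp] [Fl] (hP : PATQ) (h2 : FRM) (h3 : RLC) : CORE := by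
  intro b N a c g₀ t x L s c0 g0 d0 mz hi M y lv zy
  choose r₀ r r1 h using prs x
  obtain ⟨n, -, hn⟩ := U_bdd r (.of_forall r1)
  have k : ∀ᶠ j in U, ∃ (Q : Matrix (Fin n) (Fin (n + 2)) (Rj (j + 1))), ∃ u v w,
      Dt c t M y j Q u v w := hn.mono fun j e => by
    subst e
    obtain ⟨Q, u, p⟩ := h j
    have c1 := (t.tq j).sq.ne_zero
    have c2 := (t.pq j).1
    obtain ⟨x₁, z, k1⟩ := h2 _ _ _ _ _ _ (gr L s.1 c0 (t.N j))
      ((zy j).raw ∅ _ c (by simp [Dx]) s (Finset.mem_insert_self ..) (Finset.empty_subset _)) g₀ g0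
      (M j * (t.c j * t.q j)) _ (t.ι j) (t.Ψ j) (b.S ∪ t.T j) b.c (2 * j + 1)
      (aq.2 ⟨mul_ne_zero (lv j).ne (mul_ne_zero c1 c2.ne_zero), (lv j).two.mul_right _,
        (lv j).dv.mul_right _, (s.1.coprime_iff_not_dvd.2 fun d => c0
          ((lv j).pf ▸ Nat.mem_primeFactors.2 ⟨s.1, d, (lv j).ne⟩)).symm.mul_left
          (Nat.Coprime.mul_left ((s.1.coprime_iff_not_dvd.2 fun d =>
            ((x.tq j).cy c s.1 d).2 (Finset.mem_insert_self ..)).symm)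
            ((Nat.coprime_primes c2 s.1).2 (x.ne j)))⟩)
      ((((dvd_pow_self pp (t.N j).succ_ne_zero).mul_left _).trans (lv j).two).mul_right _)
      (by rw [Nat.primeFactors_mul (lv j).ne (mul_ne_zero c1 c2.ne_zero), (lv j).pf]; rfl)
      ((cd_c t j).mono ((dvd_mul_right _ _).mul_left _)) (G0.psi_pow t j) (hi j) b.cc
      fun l P o e => Pp.Gk.ug b _ l P o fun f => e (Finset.mem_union_left _ f)
    obtain ⟨w, w1, w2⟩ := (p _).surjOn z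
    obtain ⟨v, v1, v2⟩ := (p _).surjOn (cob_mem (t_gd t j) (a_c t j))
    exact ⟨Q, u, v, w, p, ⟨v1, congrFun v2⟩, _, ⟨w1, congrFun w2⟩, k1⟩
  obtain ⟨Q, k⟩ := U_ch k
  obtain ⟨u, k⟩ := U_ch k
  obtain ⟨v, k⟩ := U_ch k
  obtain ⟨w, k⟩ := U_ch k
  obtain ⟨C₀, h0⟩ := mz n Q u (k.mono fun j a => a.1)
  exact one hP h3 L s c0 x g0 d0 lv zy k h0

end Vale.Agent.P014U.Ct
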