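import Vale.Agent.P014U.Ct.St
import Vale.Agent.P014U.Pp.Bs0
import Vale.Agent.P014U.Pg.Bas
import Vale.Agent.P004N.H461.Cf

/-! # P014U, block C-TOP: the row LGB -/

set_option autoImplicit false
set_option linter.all false

open NumberField Matrix Polynomial
open scoped Classical

noncomputable section

namespace Vale.Agent.P014U.Ct

open Vale.Agent.P022 (Qb GQ IsConj)
open Vale.Agent.P022.H443 (inP)
open Vale.Agent.P027M.S (Inert)
open Vale.Agent.P022E.GW (Ov Fb)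
open Vale.Agent.P004F (Nt M2 hq)
open X4S (Pl)
open X4S.Aq (cz)
open P004M.TE (al)
open X4M.TE (mt det_cyc)
open P004N (RN)
open Top (El No Gd Mu Lp Pm)
open Pp (Bs)
open Pp.G2 (I2)
open Pp.B0

variable [Pp]

namespace Lb

variable {r : GQ →* M2 ℤ_[pp]} {p : ℕ} {P : Ideal (𝓞 Qb)} {φ τ : GQ} {t : ℤ}

theorem fix (n : ¬ No r p) (o : Ov p P) :
    ∃ v : Fin 2 → ℤ_[pp], v ≠ 0 ∧ ∀ g, Inert P g → r g *ᵥ v = v := by
  simp only [No, not_forall] at n
  obtain ⟨Q, o', v, k, v0⟩ := n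
  obtain ⟨t, c, -⟩ := P004S.ex_conj o' o
  refine ⟨r t *ᵥ v, fun e => v0 ?_, fun g i => ?_⟩
  · rw [← one_mulVec v, ← map_one r, ← inv_mul_cancel t, map_mul, ← mulVec_mulVec, e, mulVec_zero]
  · refine Eq.trans ?_ (congrArg (r t *ᵥ ·) (k _ (c g i)))
    rw [mulVec_mulVec, mulVec_mulVec, ← map_mul, ← map_mul, ← mul_assoc, ← mul_assoc,
      mul_inv_cancel, one_mul]

theorem zero (d : ∀ g, Inert P g → (r g).det = 1) (n : ¬ No r p) (o : Ov p P) :
    (∀ g, Inert P g → (r g - 1).det = 0) ∧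
      ∀ g k, Inert P g → Inert P k → (r g - 1) * (r k - 1) = 0 :=
  let ⟨_, v0, e⟩ := fix n o
  ⟨fun g i => det_fix v0 (e g i), fun _ _ a b =>
    prod_zero (I := inP P) d (fun g i => det_fix v0 (e g i)) a b⟩

/-- the multiplicative factor -/
theorem mul (lc : ∀ n, IsOpen (Pg.Kr r n : Set GQ)) (d : ∀ g, Inert P g → (r g).det = 1)
    (n : ¬ No r p) (o : Ov p P) (h2 : p ≠ pp) (f : Fb p P φ) (g : Gn p P τ) (m : Mu r t p) :
    t ≠ 0 ∧ ∃ e : ℕ, (pp : ℤ_[pp][X]) ^ e * (C (p : ℤ_[pp]) - C (t : ℤ_[pp]) * X) ∈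
      I2 (Nt ((X : ℤ_[pp][X]) • (r φ).map C) ((r τ).map C) p) := by
  obtain ⟨z0, z⟩ := zero d n o
  obtain ⟨a, b⟩ := tame lc o h2 f g z
  obtain ⟨⟨k, i, k1⟩, m⟩ := m P o
  have n0 : r τ - 1 ≠ 0 := fun e => k1 (a (sub_eq_zero.1 e) k i)
  have c : r φ * (r τ - 1) = ((t : ℤ_[pp]) * p) • (r τ - 1) := by
    ext i j
    have := congrFun (m (fun x => (r τ - 1) x j) (fun k ik => funext fun x => by
      have := congrFun₂ (z k τ ik g.1) x j
      rw [sub_mul, one_mul] at this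
      exact sub_eq_zero.1 this) φ f) i
    rw [← Int.cast_smul_eq_zsmul ℤ_[pp], Int.cast_mul, Int.cast_natCast] at this
    exact this
  refine ⟨fun e => n0 ?_, ?_⟩
  · have := congrArg (r φ⁻¹ * ·) c
    simpa [e, ← mul_assoc, ← map_mul] using this
  · have := eul_m (A := r φ) (t := t) (odd_unit o.1 h2) n0
      (by rw [trace_sub, tr_two (d τ g.1) (z0 τ g.1)]; simp) (z0 τ g.1) (z τ τ g.1 g.1) c
      (by rw [add_sub_cancel, b])
    rwa [add_sub_cancel] at this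

theorem map_ne {E : ℤ_[pp][X]} (h : IsUnit (E.eval 0)) : E.map PadicInt.toZMod ≠ 0 := fun e => by
  have := (h.map PadicInt.toZMod).ne_zero
  rw [← eval₂_at_apply, map_zero, eval₂_eq_eval_map, e, eval_zero] at this
  exact this rfl

variable {A B : ℤ}

theorem gd (h : El A B) (hp : p.Prime) (b : ¬ (p : ℤ) ∣ 2 * pp * (4 * A ^ 3 + 27 * B ^ 2)) :
    Gd (mt (hq h)) (al A B p) p := fun P o => by
  have : Fact p.Prime := ⟨hp⟩
  refine ⟨fun g i => ?_, fun φ f => ?_⟩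
  · have := congrArg Units.val (X4M.TE.unr_rep (hq h) b P o.2.1 o.2.2 g i)
    rw [X4M.TE.rep_val, Units.val_one, ← map_one (algebraMap ℤ_[pp] ℚ_[pp]).mapMatrix] at this
    exact Matrix.map_injective Subtype.val_injective this
  · rw [(X4M.TE.frob_mt (hq h) b ⟨P, o.2.1, o.2.2, f⟩).1, P004M.TE.al_eq (X4M.TE.hg_two b),
      Int.cast_neg]

end Lb

variable [Fl]

open Lb in
/-- **row LGB** -/
theorem lgb : LGB := by
  intro A B h N G a e S c gp v y pl rn lg e2 pm bad cc cj yg fx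
  have cf := P004N.H461.pfCf N G a rn
  let r : GQ →* M2 ℤ_[pp] := X4M.TE.mt (hq h)
  have dr : ∀ g, (r g).det = cz g := det_cyc _
  have two : pp ∈ S := bad pp pp_prime (.inl ⟨2 * N * (4 * A ^ 3 + 27 * B ^ 2), by ring⟩)
  have good : ∀ l : ℕ, l.Prime → l ∉ S → Gd r (a l) l := fun l hl m => by
    have k := _root_.mt (bad l hl) m
    rw [not_or, not_not] at k
    exact k.2 ▸ gd h hl fun e => k.1 (e.trans ⟨N, by ring⟩)
  let σ := S.filter fun p => p ≠ pp ∧ ¬ No r p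
  have hσ : ∀ {p}, p ∈ σ ↔ p ∈ S ∧ p ≠ pp ∧ ¬ No r p := Finset.mem_filter
  have ex : ∀ p : ℕ, ∃ (t : ℤ) (μ : Prop), p ∈ σ → (¬ μ ∧ Gd r t p ∨ μ ∧ Mu r t p) ∧
      (¬ p ∣ fl → t = a p ∧ μ = (p ∣ N)) ∧
      (p ∣ fl → p = 2 ∧ (p - t + if μ then 0 else 1 : ℤ) ∣ e) := fun p => by
    by_cases m : p ∈ σ
    · obtain ⟨s, p2, n⟩ := hσ.1 m
      have hp := pm p s
      by_cases k : p ∣ fl
      · obtain rfl : p = 2 := (Nat.prime_dvd_prime_iff_eq hp Nat.prime_two).1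
          (hp.dvd_of_dvd_pow (show p ∣ 2 ^ 2 from k.trans Fl.dv))
        obtain x | ⟨t, x, rfl⟩ | ⟨t, x, t1, rfl⟩ := e2 k
        · exact (n x.1).elim
        · exact ⟨t, False, fun _ => ⟨.inl ⟨id, x⟩, fun z => (z k).elim, fun _ => ⟨rfl, 1, by
            rw [if_neg id]; push_cast; ring⟩⟩⟩
        · exact ⟨t, True, fun _ => ⟨.inr ⟨trivial, x⟩, fun z => (z k).elim, fun _ => ⟨rfl, t, by
            rw [if_pos trivial]; push_cast; linear_combination t1⟩⟩⟩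
      · exact ⟨a p, p ∣ N, fun _ => ⟨(lg p hp fun z => ((hp.dvd_mul.1 z).elim k fun z =>
          p2 ((Nat.prime_dvd_prime_iff_eq hp pp_prime).1 z))).resolve_left n,
          fun _ => ⟨rfl, rfl⟩, fun z => (k z).elim⟩⟩
    · exact ⟨0, True, fun z => (m z).elim⟩
  choose t μ loc using ex
  have mu : ∀ p ∈ σ, μ p → t p ≠ 0 ∧ ∃ e : ℕ,
      (pp : ℤ_[pp][X]) ^ e * (C (p : ℤ_[pp]) - C (t p : ℤ_[pp]) * X) ∈
        I2 (Nt ((X : ℤ_[pp][X]) • (r (pl.σ p)).map C) ((r (pl.τ p)).map C) p) := fun p m k => by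
    obtain ⟨s, p2, n⟩ := hσ.1 m
    have o := pl.ov p (pm p s)
    exact mul (Pg.Kr_open _) (fun g i => (dr g).trans (Pg.cz_inert o p2 i)) n o p2 (pl.fb p o.1)
      (pl.gn p o.1 p2) ((loc p m).1.resolve_left fun x => x.1 k).2
  have hs : ∀ {p}, p ∈ σ.filter (¬ · ∣ fl) → p ∈ σ ∧ t p = a p ∧ μ p = (p ∣ N) := fun m =>
    let k := Finset.mem_filter.1 m
    ⟨k.1, (loc _ k.1).2.1 k.2⟩
  refine ⟨⟨r, 1, S, σ, pl, c, gp, fun p => C (p : ℤ_[pp]) - C (t p : ℤ_[pp]) * X +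
    if μ p then 0 else X ^ 2, Pg.Kr_open _, dr, two, pm,
    fun l P i o m k => ⟨(good l o.1 m P o).1 i k, rfl⟩, fun _ => rfl, cc, fx, ⟨v, cj⟩,
    fun Y => (Pg.abs _).imp fun e k => k Y, fun k => ?_, fun p m => ⟨(hσ.1 m).1, (hσ.1 m).2.1⟩,
    fun p m g i => ?_, fun p m p2 n => ?_, fun p m => map_ne ?_, fun p m => ?_⟩,
    ⟨⟨rn.pos.ne', fun p hp k => bad p hp (.inl ?_), fun p m => ?_, fun l P o k => ?_,
      fun p m => ?_⟩, rfl, bad, ?_⟩, rfl,
    ∏ p ∈ σ.filter (· ∣ fl), (p - t p + if μ p then 0 else 1 : ℤ), ?_, ?_⟩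
  · obtain ⟨u, m, -, w, -, x, t, k, w0, -⟩ := Pg.ex_u (hq h) k
    exact ⟨u, m, x, by rwa [t, sub_sub_cancel], by rw [t]; exact fun e => w0 (sub_eq_self.1 e)⟩
  · obtain ⟨s, p2, n⟩ := hσ.1 m
    have o := pl.ov p (pm p s)
    rw [MonoidHom.one_apply, one_smul]
    exact (_root_.sq _).trans ((zero (fun g i => (dr g).trans (Pg.cz_inert o p2 i)) n o).2 g g i i)
  · have o := pl.ov p (pm p m)
    simp only [MonoidHom.one_apply, one_smul]
    by_contra! z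
    obtain ⟨w, w0, e⟩ := kol (ρ := r) (I := inP (pl.P p))
      (fun g i => (dr g).trans (Pg.cz_inert o p2 i)) z
    exact n (hσ.2 ⟨m, p2, fun q => w0 (q _ o w e)⟩)
  · have u := odd_unit (pm p (hσ.1 m).1) (hσ.1 m).2.1
    split_ifs <;> simpa using u
  · obtain ⟨s, p2, n⟩ := hσ.1 m
    have o := pl.ov p (pm p s)
    have i := (pl.gn p o.1 p2).1
    simp only [MonoidHom.one_apply, one_smul]
    split_ifs with k
    · rw [add_zero]
      exact (mu p m k).2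
    · have g := ((loc p m).1.resolve_right fun x => k x.1).2 _ o
      refine ⟨0, ?_⟩
      rw [pow_zero, one_mul, g.1 _ i, Matrix.map_one _ C_0 C_1, ← g.2 _ (pl.fb p o.1)]
      exact eul_g (odd_unit o.1 p2) ((dr _).trans (Pg.cz_fb o p2 (pl.fb p o.1)))
  · exact (Int.natCast_dvd_natCast.2 k).trans ⟨pp * (4 * A ^ 3 + 27 * B ^ 2), by push_cast; ring⟩
  · obtain ⟨m, x, z⟩ := hs m
    have k : p ∣ N → a p ≠ 0 := fun k => x ▸ (mu p m (z ▸ k)).1
    exact ⟨fun q => k ((dvd_pow_self p two_ne_zero).trans q) (cf.bad2 p (pm p (hσ.1 m).1) q), k⟩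
  · by_cases m : l ∈ S
    · obtain ⟨m', x, z⟩ := hs (k m).1
      exact (x ▸ ((loc l m').1.resolve_right fun q => (k m).2 (z ▸ q.1)).2) P o
    · exact good l o.1 m P o
  · obtain ⟨-, x, z⟩ := hs m
    simp only [x, z]
  · rw [dotProduct, Fin.sum_univ_two] at yg
    exact (IsLocalRing.isUnit_or_isUnit_of_add_one yg).elim
      (fun u => ⟨0, isUnit_of_mul_isUnit_right u⟩) fun u => ⟨1, isUnit_of_mul_isUnit_right u⟩
  · rw [Int.cast_prod]
    refine Finset.prod_congr rfl fun p _ => ?_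
    dsimp only
    split_ifs <;> simp
  · have k : ∀ p ∈ σ.filter (· ∣ fl), p = 2 ∧ (p - t p + if μ p then 0 else 1 : ℤ) ∣ e :=
      fun p m => (loc p (Finset.mem_filter.1 m).1).2.2 (Finset.mem_filter.1 m).2
    obtain z | z := Finset.subset_singleton_iff.1 fun p m => Finset.mem_singleton.2 (k p m).1
    · rw [z, Finset.prod_empty]
      exact one_dvd e
    · rw [z] at k ⊢
      rw [Finset.prod_singleton]
      exact (k 2 (Finset.mem_singleton_self 2)).2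

end Vale.Agent.P014U.Ct
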