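import Vale.Agent.P014U.Ct.St
import Vale.Agent.P014U.Pp.Rn0
import Vale.Agent.P014U.Dr.Shp
import Vale.Agent.P014U.Dr.Kol

/-! # P014U, block C-TOP, row RLC: the unit class and the primitive class -/

set_option autoImplicit false
set_option linter.all false

open NumberField Matrix Filter PowerSeries Set
open scoped Classical

noncomputable section

namespace Vale.Agent.P014U.Ct

open Vale.Agent.P022 (Qb GQ IsConj)
open Vale.Agent.P027M.S (Inert)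
open Vale.Agent.P022E.GW (Ov Fb)
open X4S (Pl)
open X4F (La Rj cj mj)
open Vale.Agent.P004F (M2)
open PadicInt (toZModPow toZMod)
open Dr (Hm Ha Zn aa am Gr Raw Eu Fm Cd Ch Co cor ch_iff Ug)
open P014T.Dr (Hm_le root_cong)
open P014T.Pq (Zq)
open Pp (Bs Tw)

variable [Pp]

namespace Rl

section gen

variable {A : Type} [CommRing A]

omit [Pp] in
theorem fin1 {α : GQ → M2 A} {s δ e e' k k' f : A} {u v z z' : GQ → Fin 2 → A}
    (h : Ch ⊤ α ((δ * k' * s) • u) ((δ * e * e') • v)) (h' : Ch ⊤ α z' (δ • v)) (o : k • z' = f • z) :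
    Ch ⊤ α ((k * k' * δ * s) • u) ((e * (e' * f)) • z) := by
  rw [ch_iff, map_smul, map_smul] at h
  rw [ch_iff, map_smul] at h'
  have := congrArg (Dr.Bd ⊤ α).mkQ o
  rw [map_smul, map_smul, h'] at this
  rw [ch_iff, map_smul, map_smul]
  linear_combination (norm := module) k • h + (e * e') • this

omit [Pp] in
theorem fin2 {α : GQ → M2 A} {s e : A} {u z x x' : GQ → Fin 2 → A} (h : Ch ⊤ α (s • u) (e • z))
    (k : Ch ⊤ α x u) (k' : Ch ⊤ α x' (2 • z)) : Ch ⊤ α ((2 * s) • x) (e • x') := by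
  rw [ch_iff, map_smul, map_smul] at h ⊢
  rw [ch_iff.1 k, ch_iff.1 k', map_nsmul, smul_comm, mul_smul, h, two_smul, two_smul]

/-- the norm relation for a set of new primes -/
theorem eu_prod {n M : ℕ} {ρ : GQ →* M2 (Zn n)} {S : Finset ℕ} {a : ℕ → ℤ} {Ad : ℕ → Prop} {z : Fm n}
    {ι : Zn n →+* A} {Ψ : GQ →* A} (G : Gr ρ S a Ad) (E : Eu ρ S a Ad z) (pl : Pl) (m : Ad M)
    (c : Cd M Ψ) (C : Finset ℕ) (h : ∀ l ∈ C, l.Prime ∧ l ∉ S ∧ ¬ l ∣ M) : Ad (M * ∏ l ∈ C, l) ∧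
      (∏ l ∈ C, (l : A)) • z (M * ∏ l ∈ C, l) A ι Ψ =
        (∏ l ∈ C, (l - a l * Ψ (pl.σ l) + Ψ (pl.σ l) ^ 2)) • z M A ι Ψ := by
  induction C using Finset.induction_on with
  | empty => simpa using m
  | insert l C hl ih =>
    obtain ⟨i1, i2⟩ := ih fun k e => h k (Finset.mem_insert_of_mem e)
    obtain ⟨p, s, d⟩ := h l (Finset.mem_insert_self _ _)
    have d' : ¬ l ∣ M * ∏ k ∈ C, k := fun e => (p.dvd_mul.1 e).elim d fun e => by
      obtain ⟨k, k1, k2⟩ := (p.prime.dvd_finset_prod_iff _).1 e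
      exact hl ((Nat.prime_dvd_prime_iff_eq p (h k (Finset.mem_insert_of_mem k1)).1).1 k2 ▸ k1)
    simp only [Finset.prod_insert hl]
    rw [mul_comm l, ← mul_assoc, mul_comm (l : A), mul_smul, E.odd _ _ ι Ψ l _ _ i1
      (c.mono (dvd_mul_right _ _)) (pl.ov l p) s d' (pl.fb l p), smul_comm, i2, smul_smul]
    exact ⟨G.adl _ _ i1 p s d', rfl⟩

end gen

variable {b : Bs} {N c : ℕ} {a : ℕ → ℤ} {t : Tw b}

theorem ug (b : Bs) (n : ℕ) {l : ℕ} {P : Ideal (𝓞 Qb)} (o : Ov l P) (l2 : l ≠ pp)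
    (h : ∀ i, Inert P i → b.r i = 1) : Ug (b.ρ n) l P := by
  refine ⟨o, l2, fun i m => (congrArg (toZModPow n).mapMatrix (h i m)).trans (map_one _),
    fun φ f => ((toZModPow n).map_det _).symm.trans ((congrArg _ (b.det φ)).trans ?_)⟩
  obtain ⟨ζ, χ, h1, -, -, h3⟩ := P014T.Dr.ex_cy (pp ^ n)
  have := h3 φ _ (X4S.Aq.cz_spec φ h1.pow_eq_one)
  rw [ZMod.natCast_zmod_val] at this
  exact this.symm.trans (h3 φ l (root_cong o (fun d => l2 ((Nat.prime_dvd_prime_iff_eq o.1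
    pp_prime).1 (o.1.dvd_of_dvd_pow d))) f h1.pow_eq_one))

theorem psi (j : ℕ) (g : GQ) : t.Ψ j g = mj (j + 1) (1 + X) ^ (t.e j g).val := by
  rw [t.hΨ, b.one, map_one, one_mul]

theorem cd (j : ℕ) : Cd (t.c j) (t.Ψ j) := fun g m => by
  rw [psi, (t.tq j).ker g m, ZMod.val_zero, pow_zero]

/-- a framed cocycle in the class of the Euler system -/
theorem ex_fr (x : t.Es) (j : ℕ) :
    ∃ x₂ ∈ Zq (Rj (j + 1)) (b.S ∪ t.T j) (t.a j) b.c, Ch ⊤ (t.a j) x₂ (2 • x.cl j) := by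
  have C := (cd (t := t) j).mono ((dvd_mul_right _ _).trans (x.dv j))
  obtain ⟨K, k1, k2, k3, k4⟩ := Dr.kol1 (ι := t.ι j) (x.gr j) (x.eu j) (x.ad j) C (fun g => by
    obtain ⟨y, e⟩ := sub_one_dvd_pow_sub_one (mj (j + 1) (1 + X)) (t.e j g).val
    rw [psi, e, map_add, map_one, add_sub_cancel_left]
    exact (Commute.all _ _).isNilpotent_mul_right ⟨_, Pp.Rg.X_mq⟩) b.cc
  have i : Dr.Inj (∅ : Finset (Dr.Kp (b.ρ (t.N j)) (x.S j) (t.ι j) (t.Ψ j) (x.M j))) := by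
    simp [Dr.Inj]
  have c := k1.cc0 k2 ((x.gr j).pos _ (x.ad j)) C (S₀ := b.S) (fun l P o m =>
    ug b _ o (fun e => m (e ▸ b.two)) fun i h => (b.unr l P i o m h).1) i
  exact ⟨K ∅, ⟨fun g g' => c.coc g trivial g' trivial, c.lc, fun g a => c.unr g (P022K.G2.In_anti (by
    simpa using Finset.coe_subset.2 (x.pf j)) a), k3 _ i⟩, x.cl j b.c, fun g _ =>
    (congrArg (· - _) (k4 g)).trans (add_sub_cancel_left _ _)⟩

/-- two framed cocycles in the same class -/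
theorem frm (j : ℕ) {x x' : GQ → Fin 2 → Rj (j + 1)} (h : x b.c = 0) (h' : x' b.c = 0)
    (e : Ch ⊤ (t.a j) x x') : ∃ l : Rj (j + 1), (2 : Rj (j + 1)) • x =
      (2 : Rj (j + 1)) • x' + l • db (t.a j) (cj _ ∘ b.gp) := by
  obtain ⟨w, e⟩ := e
  obtain ⟨v, hv⟩ := b.cj
  have a1 : t.a j b.c = (b.r b.c).map (cj _) := by
    rw [t.a_eq, psi, (t.tq j).cj _ b.cc, ZMod.val_zero, pow_zero, one_smul]
  have a2 := e b.c trivial
  rw [h, h', sub_self, eq_comm, sub_eq_zero] at a2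
  have a3 : (2 : Rj (j + 1)) • w = ((cj _ ∘ v) ⬝ᵥ w) • (cj _ ∘ b.gp) := by
    have := congrArg (fun B => (cj (j + 1)).mapMatrix B *ᵥ w) hv
    simp only [map_add, map_one, RingHom.mapMatrix_apply, add_mulVec, one_mulVec, ← a1, a2] at this
    rw [two_smul, this]
    funext i
    simp [mulVec, dotProduct, vecMulVec]
    ring
  refine ⟨(cj _ ∘ v) ⬝ᵥ w, funext fun g => ?_⟩
  rw [Pi.add_apply, Pi.smul_apply, Pi.smul_apply, Pi.smul_apply, db, ← mulVec_smul, ← a3, mulVec_smul,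
    sub_mulVec, one_mulVec, ← e g trivial, ← smul_add, add_sub_cancel]

variable [Fl]

/-- the multiplicative primes -/
def sN (b : Bs) (N : ℕ) : Finset ℕ := (sp b).filter (· ∣ N)

/-- the good primes -/
def sG (b : Bs) (N : ℕ) : Finset ℕ := (sp b).filter (¬ · ∣ N)

theorem of_sp {p : ℕ} (m : p ∈ sp b) : p ∈ b.S ∧ p.Prime ∧ ¬ p ∣ fl * pp :=
  have m' := Finset.mem_filter.1 m
  have s := b.sub p m'.1
  ⟨s.1, b.pr p s.1, fun d => ((b.pr p s.1).dvd_mul.1 d).elim m'.2 fun d =>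
    s.2 ((Nat.prime_dvd_prime_iff_eq (b.pr p s.1) pp_prime).1 d)⟩

theorem Ej_eq (h : Lf N a b) (j : ℕ) : Ej t j =
    (∏ p ∈ sN b N, ((p : Rj (j + 1)) - a p * t.Ψ j (b.pl.σ p))) *
      ∏ l ∈ sG b N, ((l : Rj (j + 1)) - a l * t.Ψ j (b.pl.σ l) + t.Ψ j (b.pl.σ l) ^ 2) := by
  rw [Ej, ← Finset.prod_filter_mul_prod_filter_not (sp b) (· ∣ N)]
  congr 1 <;> refine Finset.prod_congr rfl fun p m => ?_
  · rw [h.eE p (Finset.mem_filter.1 m).1, if_pos (Finset.mem_filter.1 m).2, add_zero, psi]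
    simp only [Polynomial.eval₂_sub, Polynomial.eval₂_mul, Polynomial.eval₂_C, Polynomial.eval₂_X]
    rw [map_intCast, map_natCast]
  · rw [h.eE p (Finset.mem_filter.1 m).1, if_neg (Finset.mem_filter.1 m).2, psi]
    simp only [Polynomial.eval₂_sub, Polynomial.eval₂_add, Polynomial.eval₂_mul, Polynomial.eval₂_C,
      Polynomial.eval₂_X, Polynomial.eval₂_X_pow]
    rw [map_intCast, map_natCast]

theorem dx (h : Lf N a b) : Dx N (sN b N) := fun p m =>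
  have m' := Finset.mem_filter.1 m
  ⟨(of_sp m'.1).2.1, (of_sp m'.1).2.2, m'.2, (h.nd p m'.1).1⟩

theorem sub (c' : ℕ) : sN b N ⊆ insert c' (b.S \ sG b N) := fun p m => Finset.mem_insert_of_mem
  (Finset.mem_sdiff.2 ⟨(of_sp (Finset.mem_filter.1 m).1).1, fun f =>
    (Finset.mem_filter.1 f).2 (Finset.mem_filter.1 m).2⟩)

theorem gr (L : Lf N a b) (n : ℕ) {c : ℕ} (hc : Sm N c) :
    Gr (b.ρ n) (insert c (b.S \ sG b N)) a (Aq n N (sN b N) c) := by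
  have h l (s : l ∉ insert c (b.S \ sG b N)) (m : l ∈ b.S) : l ∈ sp b ∧ ¬ l ∣ N := by
    by_contra e
    exact s (Finset.mem_insert_of_mem (Finset.mem_sdiff.2 ⟨m, fun f => e (Finset.mem_filter.1 f)⟩))
  have h2 : pp ∈ insert c (b.S \ sG b N) := by
    by_contra e
    exact (of_sp (h _ e b.two).1).2.2 (dvd_mul_left _ _)
  have u l P (o : Ov l P) (m : l ∉ insert c (b.S \ sG b N)) : Ug (b.ρ n) l P :=
    ug b n o (fun e => m (e ▸ h2)) (L.gd l P o (h l m)).1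
  have k : ∀ {M l : ℕ}, Aq n N (sN b N) c M → l.Prime → l ≠ c → l ∉ sN b N →
      Aq n N (sN b N) c (M * l) :=
    fun {M l} m p e e' => ⟨mul_ne_zero m.1 p.ne_zero, m.2.1.mul_right _, m.2.2.1.mul_right _,
      Nat.Coprime.mul_left m.2.2.2.1 ((Nat.coprime_primes p hc.1).2 e), fun q hq d =>
        m.2.2.2.2 q hq (Nat.Coprime.dvd_of_dvd_mul_right (Nat.Coprime.pow_left _
          ((Nat.coprime_primes (dx L q hq).1 p).2 fun r => e' (r ▸ hq))) d)⟩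
  refine ⟨h2, fun l P o m => (u l P o m).unr, fun l P φ o m f => ⟨(u l P o m).det φ f, ?_⟩,
    fun M m => m.1, fun M m => k m pp_prime (fun e => (Nat.Prime.coprime_iff_not_dvd hc.1).1
      m.2.2.2.1.symm (e ▸ ((dvd_pow_self pp n.succ_ne_zero).mul_left _).trans m.2.1))
      fun e => (dx L pp e).2.1 (dvd_mul_left _ _), fun M l m p e _ => k m p
      (fun r => e (r ▸ Finset.mem_insert_self _ _)) fun r => e (sub c r)⟩
  rw [← map_intCast (toZModPow n), ← (L.gd l P o (h l m)).2 φ f]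
  exact (AddMonoidHom.map_trace (toZModPow n) _).symm

/-- the conductor without the tame primes -/
theorem split (h : Lf N a b) {n M : ℕ} (L : Lv n N b.S M) : ∃ M', M = M' * (∏ p ∈ sG b N, p) *
    ∏ p ∈ sN b N, p ∧ (∀ p ∈ sp b, ¬ p ∣ M') ∧ fl * pp ^ (n + 1) ∣ M' ∧ N ∣ M' * ∏ p ∈ sN b N, p := by
  have e : (∏ p ∈ sG b N, p) * ∏ p ∈ sN b N, p = ∏ p ∈ sp b, p := by
    rw [mul_comm]; exact Finset.prod_filter_mul_prod_filter_not ..
  have pr p (m : p ∈ sp b) := (of_sp m).2.1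
  obtain ⟨M', rfl⟩ : ∏ p ∈ sp b, p ∣ M := Finset.prod_primes_dvd _ (fun p m => (pr p m).prime)
    fun p m => Nat.dvd_of_mem_primeFactors (L.pf ▸ (of_sp m).1)
  have co {x : ℕ} {T : Finset ℕ} (s : T ⊆ sp b) (k : ∀ p ∈ T, ¬ p ∣ x) : x.Coprime (∏ p ∈ T, p) :=
    Nat.Coprime.prod_right fun p m => ((Nat.Prime.coprime_iff_not_dvd (pr p (s m))).2 (k p m)).symm
  refine ⟨M', by rw [mul_assoc, e, mul_comm], fun p m d => (h.nd p m).1 (L.sq p (pr p m)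
    (of_sp m).2.2 ?_), (co subset_rfl fun p m d => (of_sp m).2.2 (((pr p m).dvd_mul.1 d).elim
      (·.mul_right _) fun d => ((pr p m).dvd_of_dvd_pow d).mul_left _)).dvd_of_dvd_mul_left L.two,
    (co (T := sG b N) (Finset.filter_subset _ _) fun p m =>
      (Finset.mem_filter.1 m).2).dvd_of_dvd_mul_left ?_⟩
  · rw [sq]; exact mul_dvd_mul (Finset.dvd_prod_of_mem _ m) d
  · rw [mul_left_comm, e, mul_comm]; exact L.dv

/-- the second smoothing prime -/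
theorem ex_c (h : Lf N a b) (hc : Sm N c) (cS : c ∉ b.S) (j B : ℕ) : ∃ c', B < c' ∧ Sm N c' ∧
    c' ≡ c [MOD pp ^ (j + 1)] ∧ c' ≡ 1 [MOD t.c j] := by
  have c0 := (t.tq j).sq.ne_zero
  have k : (pp ^ (j + 1) * N).Coprime (t.c j) := Nat.coprime_of_dvd fun p m d d' =>
    ((t.tq j).cy p m d').2 ((m.dvd_mul.1 d).elim (fun e =>
      (Nat.prime_dvd_prime_iff_eq m pp_prime).1 (m.dvd_of_dvd_pow e) ▸ b.two)
      fun e => h.bad p m (e.mul_left _))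
  obtain ⟨r, r1, r2⟩ := Nat.chineseRemainder k c 1
  have k1 : c.Coprime (pp ^ (j + 1) * N) := (Nat.Coprime.pow_right _ ((Nat.coprime_primes hc.1
    pp_prime).2 fun e => cS (e ▸ b.two))).mul_right (Nat.coprime_of_mul_modEq_one 1 (by
      simpa using hc.2.2))
  obtain ⟨p, p1, p2, p3⟩ := Nat.forall_exists_prime_gt_and_modEq (B + 3)
    (q := pp ^ (j + 1) * N * t.c j) (a := r)
    (mul_ne_zero (mul_ne_zero (pow_ne_zero _ pp_prime.ne_zero) h.ne) c0)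
    (Nat.Coprime.mul_right (by rwa [Nat.Coprime, Nat.ModEq.gcd_eq r1])
      (by rw [Nat.Coprime, Nat.ModEq.gcd_eq r2]; simp))
  have q1 := (p3.of_mul_right _).trans r1
  exact ⟨p, by omega, ⟨p2, by omega, (q1.of_mul_left _).trans hc.2.2⟩, q1.of_mul_right _,
    (p3.of_mul_left _).trans r2⟩

/-- one level -/
theorem lev (h : Lf N a b) (hc : Sm N c) (cS : c ∉ b.S) (tx : Tx t c) {g₀ : GQ}
    (g0 : g₀ ∈ Ha) (j : ℕ) {M : ℕ} {y : Fy (t.N j)} (L : Lv (t.N j) N b.S M)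
    (Z : Zy (b.ρ (t.N j)) N a y) : ∃ (S : Finset ℕ) (Ad : ℕ → Prop) (z : Fm (t.N j)) (M₀ : ℕ),
      Gr (b.ρ (t.N j)) S a Ad ∧ Eu (b.ρ (t.N j)) S a Ad z ∧ Ad M₀ ∧ t.c j * t.q j ∣ M₀ ∧
      M₀.primeFactors ⊆ b.S ∪ t.T j ∧
      Ch ⊤ (t.a j) (cj (j + 1) (((∏ p ∈ sG b N, p : ℕ) * kp a (sN b N) : ℤ) * dl b g₀ ^ 2 * s0 c) •
        cu t j c M y)
        ((sm (t.Ψ j) (b.pl.σ c) c * Ej t j) • z M₀ _ (t.ι j) (t.Ψ j)) := by
  obtain ⟨M', rfl, m1, m3, m4⟩ := split h L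
  set k := ∏ p ∈ sG b N, p
  set d := ∏ p ∈ sN b N, p
  set w := t.c j * t.q j
  have w0 : w ≠ 0 := mul_ne_zero (t.tq j).sq.ne_zero (t.pq j).1.ne_zero
  have M0 : M' * k * d * w ≠ 0 := mul_ne_zero L.ne w0
  obtain ⟨c', b1, b2, b3, b4⟩ := ex_c (t := t) h hc cS j (M' * k * d * w)
  have G := gr h (t.N j) b2
  have R := Z.raw _ _ c' (dx h) b2 (Finset.mem_insert_self _ _) (sub c')
  obtain ⟨z, E, hz⟩ := Dr.shp _ _ _ _ _ _ G R g₀ g0
  have nS {p} (m : p ∈ sp b) : ¬ p ∣ w := fun e =>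
    have ⟨m, x, _⟩ := of_sp m
    (x.dvd_mul.1 e).elim (fun e => ((t.tq j).cy p x e).2 m) fun e =>
      (t.pq j).2.1 ((Nat.prime_dvd_prime_iff_eq x (t.pq j).1).1 e ▸ m)
  have inS {p} (x : p.Prime) (e : p ∣ M' * k * d) : p ∈ b.S :=
    L.pf ▸ Nat.mem_primeFactors.2 ⟨x, e, L.ne⟩
  have n1 : ¬ c' ∣ M' * k * d * w := Nat.not_dvd_of_pos_of_lt (Nat.pos_of_ne_zero M0) b1
  have n2 : ¬ c ∣ M' * k * d * w := fun e => (hc.1.dvd_mul.1 e).elim (fun e => cS (inS hc.1 e))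
    fun e => (hc.1.dvd_mul.1 e).elim (fun e => ((tx.tq j).cy c hc.1 e).2 (Finset.mem_insert_self _ _))
      fun e => tx.ne j ((Nat.prime_dvd_prime_iff_eq hc.1 (t.pq j).1).1 e).symm
  have n3 p (m : p ∈ sp b) : ¬ p ∣ M' * w := fun e =>
    ((of_sp m).2.1.dvd_mul.1 e).elim (m1 p m) (nS m)
  have e1 : M' * k * d * w = M' * w * d * k := by ring
  have v0 : M' * w * d ∣ M' * k * d * w := ⟨k, e1⟩
  have cp {e x : ℕ} (p : e.Prime) (n : ¬ e ∣ x) : x.Coprime e := ((Nat.Prime.coprime_iff_not_dvd p).2 n).symm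
  have A0 : Aq (t.N j) N (sN b N) c' (M' * w * d) := ⟨ne_zero_of_dvd_ne_zero M0 v0,
    (m3.mul_right _).mul_right _, by rw [mul_right_comm]; exact m4.mul_right _,
    cp b2.1 fun e => n1 (e.trans v0), fun p m e => (dx h p m).2.2.2 (L.sq p (dx h p m).1 (dx h p m).2.1
      ((Nat.Coprime.pow_left 2 (cp (dx h p m).1 (nS
        (Finset.mem_filter.1 m).1)).symm).dvd_of_dvd_mul_right (e.trans v0)))⟩
  have C0 : Cd (M' * w) (t.Ψ j) := (cd j).mono ((dvd_mul_right _ _).mul_left _)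
  obtain ⟨A1, o⟩ := eu_prod (ι := t.ι j) G E b.pl A0 (C0.mono ⟨_, rfl⟩) (sG b N) fun l m =>
    have m' := Finset.mem_filter.1 m
    have pl := (of_sp m'.1).2.1
    ⟨pl, fun f => (Finset.mem_insert.1 f).elim (fun e => n1 (e ▸
      (((Finset.dvd_prod_of_mem _ m).mul_left _).mul_right _).mul_right _)) fun f =>
        (Finset.mem_sdiff.1 f).2 m, fun e => (pl.dvd_mul.1 e).elim (n3 l m'.1) fun e => by
      obtain ⟨q, k1, k2⟩ := (Prime.dvd_finset_prod_iff pl.prime _).1 e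
      exact m'.2 (k2.trans (dx h q k1).2.2.1)⟩
  have r := Z.rel (sN b N) c c' (M' * w * d * k) (M' * w * k) _ (t.ι j) (t.Ψ j) b.pl (dx h) hc
    b2 (mul_right_comm ..) ⟨A1.1, A1.2.1, A1.2.2.1, (cp hc.1 (e1 ▸ n2)).mul_right A1.2.2.2.1,
      A1.2.2.2.2⟩ (C0.mono ⟨_, rfl⟩) g₀ g0
  obtain ⟨-, z2, -⟩ := hz _ _ (t.ι j) (t.Ψ j) A1 (C0.mono ⟨_, mul_assoc ..⟩)
  have s1 : sm (t.Ψ j) (b.pl.σ c') c' = cj (j + 1) (s0 c) := by
    have e : (c' : Rj (j + 1)) = c := by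
      have := (ZMod.natCast_eq_natCast_iff _ _ _).2 b3
      obtain ⟨f⟩ := Pp.ex_io (R := Rj (j + 1)) Pp.Rg.two_mq
      simpa using congrArg f this
    rw [sm, cd j _ (inv_mem fun x e => ?_), e, s0]
    · simp
    · rw [root_cong (b.pl.ov c' b2.1) (fun e => n1 ((e.mul_right (t.q j)).mul_left _))
        (b.pl.fb c' b2.1) e, pow_eq_pow_mod _ e, b4, ← pow_eq_pow_mod _ e, pow_one]
  have s2 : t.ι j (b.ρ (t.N j) g₀ - 1).det = cj (j + 1) (dl b g₀) := by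
    rw [← Pp.io_eq (t.ι j), dl, (toZModPow _).map_det, map_sub, map_one]; rfl
  refine ⟨_, _, z, M' * w * d, G, E, A0, (dvd_mul_left _ _).mul_right _, fun p m => ?_, ?_⟩
  · have x := Nat.prime_of_mem_primeFactors m
    exact Finset.mem_union.2 ((x.dvd_mul.1 ((Nat.dvd_of_mem_primeFactors m).trans v0)).imp
      (inS x) fun e => Nat.mem_primeFactors.2 ⟨x, e, w0⟩)
  · have := fin1 r z2 o
    rw [s1, s2, ← Ej_eq h, ← e1] at this
    rwa [map_mul, map_mul, map_pow, map_intCast, Int.cast_mul, Int.cast_natCast, Nat.cast_prod]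

end Rl

open Rl

/-- **row RLC** -/
theorem rlc [Fl] : RLC := fun b N a t c g₀ M y h hc cS tx g0 L Z => by
  choose S Ad z M₀ a1 a2 a3 a4 a6 a7 using fun j => lev h hc cS tx g0 j (L j) (Z j)
  let x : t.Es := ⟨S, a, Ad, z, M₀, a1, a2, a3, a4, fun _ g _ => b.one g, a6⟩
  refine ⟨x, (∏ p ∈ sG b N, p : ℕ) * kp a (sN b N), mul_ne_zero (Nat.cast_ne_zero.2
    (Finset.prod_ne_zero_iff.2 fun p m => (of_sp (Finset.mem_filter.1 m).1).2.1.ne_zero))
    (Finset.prod_ne_zero_iff.2 fun p m => ?_), fun j => ?_⟩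
  · have := (dx h p m).1.two_le
    exact mul_ne_zero (mul_ne_zero (by omega) ((h.nd p (Finset.mem_filter.1 m).1).2
      (dx h p m).2.2.1)) (by positivity)
  obtain ⟨x₂, m, v⟩ := ex_fr x j
  refine ⟨x₂, m, v, fun x₁ m₁ e => ?_⟩
  obtain ⟨l, hl⟩ := frm (t := t) j (by rw [Pi.smul_apply, m₁.2.2.2, smul_zero])
    (by rw [Pi.smul_apply, m.2.2.2, smul_zero]) (fin2 (a7 j) e v)
  refine ⟨l, ?_⟩
  rw [smul_smul, smul_smul, ← mul_assoc 2 (sm _ _ _)] at hl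
  rw [← hl, ← map_ofNat (cj (j + 1)) 2, ← map_mul, ← map_mul]
  congr 2
  ring

end Vale.Agent.P014U.Ct
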