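import Vale.Agent.P014U.Ct.St
import Vale.Agent.P014U.Pp.Twx

/-! # P014U, block C-TOP: the towers (helper86) -/

set_option autoImplicit false
set_option linter.all false

namespace Vale.Agent.P014U.Ct

variable [Pp] [Fl]

/-- **the towers** -/
theorem twr (H : Mu.MUQ) : TWR := fun A B h N a b c N₀ _ pc nc => by
  obtain ⟨t, h1, h2, h3, h4, h5⟩ := Pp.twx H b (Finset.subset_insert c b.S)
    (fun p k => (Finset.mem_insert.1 k).elim (· ▸ pc) (b.pr p)) (fun _ => ∅) N₀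
  exact ⟨t, h1, ⟨h2, fun j w => (h4 j _ (Nat.mem_primeFactors.2 ⟨(t.pq j).1, dvd_mul_left _ _,
    mul_ne_zero (t.tq j).sq.ne_zero (t.pq j).1.ne_zero⟩)).2.1 (Finset.mem_insert.2 (.inl w)), h3,
    fun j l w => (h4 j l w).2.2⟩, h5⟩

end Vale.Agent.P014U.Ct
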