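import Vale.Agent.P014U.Ol.Ins
import Vale.Agent.P014U.Ol.Raw

/-! # P014U, block C-TOP: the universal point satisfies the standing hypotheses (helper38, helper48) -/

set_option autoImplicit false
set_option linter.all false

open CongruenceSubgroup Finset
open scoped MatrixGroups Matrix Classical UpperHalfPlane

noncomputable section

namespace Vale.Agent.P014U.Ct.Zx

open Vale.Agent.P014T Nr
open Vale.Agent.P022 (Qb GQ)
open P027M.M (Mdl FF cv M2)
open P004N (RN)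
open P004F (hq)
open P014T.Dr (Co)
open Ts (Pm)
open Uy (Cu)
open Pu (ParY)
open Sg (Nz)

theorem co_sum {R ι : Type} [CommRing R] {H : Subgroup GQ} {a : GQ → P004F.M2 R} (s : Finset ι)
    {y : ι → GQ → Fin 2 → R} (h : ∀ i ∈ s, Co H a (y i)) : Co H a (∑ i ∈ s, y i) :=
  sum_induction y _ (fun u v p q =>
    let ⟨W, o, k⟩ := p.lc
    let ⟨W', o', k'⟩ := q.lc
    ⟨fun g b h b' => by
      simp only [Pi.add_apply, p.coc g b h b', q.coc g b h b', Matrix.mulVec_add]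
      abel, W ⊓ W', o.inter o', fun w b b' => by rw [Pi.add_apply, k w b.1 b', k' w b.2 b', add_zero]⟩)
    ⟨fun _ _ _ _ => by simp, ⊤, isOpen_univ, fun _ _ _ => rfl⟩ h

theorem sq_mul {p M l : ℕ} (hp : p.Prime) (hl : l.Prime) (n : p ≠ l) (h : ¬ p ^ 2 ∣ M) :
    ¬ p ^ 2 ∣ M * l := fun e =>
  h (((Nat.coprime_primes hp hl).2 n).pow_left 2 |>.dvd_of_dvd_mul_right e)

variable {A B : ℤ} {X : Mdl} {ξ : Pm FF A B} {N c d L m q : ℕ} {Y : M2}

theorem pr_sq (h : c.Prime) (k : 3 < c) : c ^ 2 % 24 = 1 := by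
  have a : ¬ 2 ∣ c := fun e => by have := (Nat.prime_dvd_prime_iff_eq Nat.prime_two h).1 e; omega
  have b : ¬ 3 ∣ c := fun e => by have := (Nat.prime_dvd_prime_iff_eq Nat.prime_three h).1 e; omega
  rw [Nat.pow_mod]
  have : c % 24 < 24 := Nat.mod_lt _ (by norm_num)
  generalize e : c % 24 = r at this
  interval_cases r <;> omega

theorem nz_pr (L0 : 0 < L) (h : q ∣ L) (hc : q.Coprime c) (o : ¬ (q : ℤ) ∣ Y.det) (i : Fin 2) :
    Nz c (vL L (Y i)) := (nz_iff L0).2 fun f => o (by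
  have k j : (q : ℤ) ∣ Y i j := (Nat.isCoprime_iff_coprime.2 hc).dvd_of_dvd_mul_left
    ((Int.natCast_dvd_natCast.2 h).trans (f j))
  rw [Matrix.det_fin_two]
  revert k i
  exact Fin.forall_fin_two.2 ⟨fun _ k => ((k 0).mul_right _).sub ((k 1).mul_right _),
    fun _ k => ((k 1).mul_left _).sub ((k 0).mul_left _)⟩)

theorem pa_eq {Z : M2} {u : 0 < Y.det} (v : 0 < Z.det) (e : Y = Z) :
    pA X Z v • ξ = Pu.pq X Y u ξ := by
  subst e
  rfl

variable {G I : ℍ → ℂ} {a : ℕ → ℤ} {w l : ℕ} {x y : FF} (h : RN N G a)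
  (p : ParY N a A B w I (cv x) (cv y)) (X)

theorem hk (hl : l.Prime) (k : ¬ l ∣ N) : Hk X (p.toPw.xi h) l (a l) := fun u v => by
  rw [← p.toPw.heckeT h X hl k (one_mem _), Fintype.sum_option, add_comm, sum_range]
  exact congrArg₂ _ (pa_eq v (by simp [P022.H231.L3.al]))
    (sum_congr rfl fun j _ => pa_eq (u j) (by simp [P022.H231.L3.al]))

theorem uk (hl : l.Prime) (k : l ∣ N) : Pm.Uk X (p.toPw.xi h) l (a l) := fun u => by
  rw [← p.toPw.heckeU h X hl k, sum_range]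
  exact sum_congr rfl fun j _ => pa_eq (u j) (by simp [P022.H231.L3.al])

theorem cx (hc : c ^ 2 % 24 = 1) (L0 : L ≠ 0) (q3 : 2 < q) (t : q ∣ L) (md : m ∣ L) (nd : N ∣ L)
    (k : L.Coprime c) (o : ¬ (q : ℤ) ∣ Y.det) : Ol.Cx X m (Cu (hq p.disc)) (p.toPw.xi h) N c c L Y :=
  have L0 := Nat.pos_of_ne_zero L0
  have u := nz_pr L0 t (k.coprime_dvd_left t) o
  ⟨hc, hc, L0, q3.trans_le (Nat.le_of_dvd L0 t), md, nd, Uy.cu_xi h p,
    fun _ m => p.toPw.pg h X m, p.toPw.gal h X, u 0, u 1⟩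

end Vale.Agent.P014U.Ct.Zx
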