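import Vale.Agent.P014U.Ct.St
import Vale.Agent.P014U.Ct.Zx
import Vale.Agent.P014U.Ev.Kz
import Vale.Agent.P014U.Ev.Unp

/-! # P014U, block C-TOP: the classes of Kato (helper38, helper48) -/

set_option autoImplicit false
set_option linter.all false

open CongruenceSubgroup Finset
open scoped MatrixGroups Matrix Classical UpperHalfPlane

noncomputable section

namespace Vale.Agent.P014U.Ct

open Vale.Agent.P022 (Qb GQ)
open P027M.M (Mdl FF cv Cyc)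
open P004N (RN)
open P004F (hq)
open Dr (Hm Zn)
open P014T.Nr (Crd ZL cl vL fb_cyc odd_of lev_Ga)
open P014T.Ts (Ep)
open P014T.Pu (ParY)
open P014T.Sg (sF)
open Zx

variable [Pp] [Fl]

namespace Zx

variable {n N c M l : ℕ} {s : Finset ℕ}

theorem sm_sq (h : Sm N c) : c ^ 2 % 24 = 1 := pr_sq h.1 h.2.1

theorem dx_dvd (D : Dx N s) (hl : l.Prime) (h : l ∣ ∏ p ∈ s, p) : l ∈ s :=
  let ⟨p, a, b⟩ := (hl.prime.dvd_finsetProd_iff _).1 h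
  (Nat.prime_dvd_prime_iff_eq hl (D p a).1).1 b ▸ a

theorem dx_pp (D : Dx N s) : pp ∉ s := fun k => (D _ k).2.1 (dvd_mul_left _ _)

theorem aq_pw (q : Aq n N s c M) : pp ^ (n + 1) ∣ M := (dvd_mul_left _ _).trans q.2.1

theorem aq_pp (q : Aq n N s c M) : pp ∣ M := (dvd_pow_self _ n.succ_ne_zero).trans (aq_pw q)

theorem aq_mul (D : Dx N s) (q : Aq n N s c M) (hl : l.Prime) (k : l ∉ s) (lc : l.Coprime c) :
    Aq n N s c (M * l) :=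
  ⟨mul_ne_zero q.1 hl.ne_zero, q.2.1.mul_right _, q.2.2.1.mul_right _, q.2.2.2.1.mul_left lc,
    fun r m => sq_mul (D r m).1 hl (fun e => k (e ▸ m)) (q.2.2.2.2 r m)⟩

end Zx

/-- the systems in any coordinates -/
theorem zy {X : Mdl} {N : ℕ} {G I : ℍ → ℂ} {a : ℕ → ℤ} {A B : ℤ} {w n : ℕ} {x y : FF} (h : RN N G a)
    (p : ParY N a A B w I (cv x) (cv y)) (γ : SL(2, ℤ)) {ρ : GQ →* P004F.M2 (Zn n)}
    {e : (Fin 2 → Zn n) →+ Ep Qb A B} (C : Crd (pp ^ n) ρ e) {ζ : Qbˣ} (pr : IsPrimitiveRoot ζ (pp ^ n))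
    (dv : ∀ P : Ep Qb A B, ∃ q, pp ^ n • q = P) :
    ∃ z : Fy n, Zy ρ N a z ∧ ∀ c M, Sm N c → Aq n N ∅ c M → 4 ∣ M →
      P014T.Uy.Zf X (hq p.disc) (Gamma M) (Hm M) (p.toPw.xi h) (pp ^ n) ζ
        (sF c (vL M ((γ : P027M.M.M2) 0))) (sF c (vL M ((γ : P027M.M.M2) 1))) (e ∘ z ∅ c M) := by
  have m0 := pow_ne_zero n pp_ne
  have R := Ol.ru (X := X) (hD := hq p.disc) C m0 pr dv
  choose! Y Y1 Y2 Y3 using fun c M V k => Ol.ext0 (X := X) (hD := hq p.disc) (ξ := p.toPw.xi h)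
    (N := N) (c := c) (d := c) (n := M) (A := V) C m0 pr dv k
  have g1 := γ.det_coe
  have nd {l : ℕ} {s} (D : Dx N s) (hl : l.Prime) (k : l ∉ s) (b : ℤ) :
      ¬ (l : ℤ) ∣ ((γ : P027M.M.M2) * !![((∏ p ∈ s, p : ℕ) : ℤ), b; 0, 1]).det := fun e =>
    k (dx_dvd D hl (Int.natCast_dvd_natCast.1 (e.trans (by simp [g1]))))
  have cz {s c M V} (hc : Sm N c) (q : Aq n N s c M) (o : ¬ (pp : ℤ) ∣ Matrix.det V) :=
    cx X h p (sm_sq hc) q.1 two_lt (aq_pp q) ((pow_dvd_pow _ n.le_succ).trans (aq_pw q)) q.2.2.1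
      q.2.2.2.1 o
  have n2 {s} (D : Dx N s) := nd D pp_prime (dx_pp D)
  have gl {l : ℕ} (hl : l.Prime) : ¬ (l : ℤ) ∣ (γ : P027M.M.M2).det := fun j =>
    (Nat.prime_iff_prime_int.1 hl).not_dvd_one (g1 ▸ j)
  have g2 := gl pp_prime
  have hz {s c M} (D : Dx N s) (hc : Sm N c) (q : Aq n N s c M) :=
    And.intro (co_sum (range (∏ p ∈ s, p)) fun (b : ℕ) _ => Y1 _ _ _ (cz hc q (n2 D b)))
      ((map_sum (cl ρ) _ (range (∏ p ∈ s, p))).trans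
        (sum_congr rfl fun (b : ℕ) _ => Y2 _ _ _ (cz hc q (n2 D b))))
  have y0 c M : ∑ b ∈ range (∏ p ∈ (∅ : Finset ℕ), p),
      Y c M (γ * !![((∏ p ∈ (∅ : Finset ℕ), p : ℕ) : ℤ), (b : ℕ); 0, 1]) = Y c M γ := by
    simp [← Matrix.one_fin_two]
  refine ⟨fun s c M => ∑ b ∈ range (∏ p ∈ s, p), Y c M (γ * !![((∏ p ∈ s, p : ℕ) : ℤ), (b : ℕ); 0, 1]),
    ⟨fun s S c D hc cS sS => ?_, fun s c c' M M' Q _ ι Ψ pl D hc hc' e q cd g₀ m => ?_,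
      fun c M Q _ ι Ψ hc q t cd g₀ m => ?_⟩, fun c M hc q t => ?_⟩
  · by_cases pc : pp.Coprime c
    swap
    · have n M (q : Aq n N s c M) := pc (q.2.2.2.1.coprime_dvd_left (aq_pp q))
      exact ⟨fun M q => (n M q).elim, fun M q => (n M q).elim, fun M _ _ _ q => (n M q).elim⟩
    refine Ol.raw1 R (D := 1) (s := range (∏ p ∈ s, p)) (w := fun _ => 1)
      (A := fun b : ℕ => γ * !![((∏ p ∈ s, p : ℕ) : ℤ), b; 0, 1]) (Nat.coprime_one_left _)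
      (pc.mul_right pc) (fun M q => ⟨q.1, aq_pp q⟩)
      (fun M q b _ => ⟨(mul_one M).symm ▸ cz hc q (n2 D b), n2 D b⟩)
      (fun M q => aq_mul D q pp_prime (dx_pp D) pc)
      (fun M l q hl lS lM => ?_) fun M q => ⟨(hz D hc q).1, by simpa using (hz D hc q).2⟩
    have lc := (Nat.coprime_primes hl hc.1).2 fun e => lS (e ▸ cS)
    exact ⟨aq_mul D q hl (fun k => lS (sS k)) lc,
      hl.coprime_iff_not_dvd.1 ((one_mul (c * c)).symm ▸ lc.mul_right lc),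
      hk X h p hl fun e => lM (e.trans q.2.2.1), fun b _ => nd D hl (fun k => lS (sS k)) b⟩
  · obtain ⟨q0, q1, q2, q3, q4⟩ := q
    have u : Aq n N ∅ c M := ⟨q0, q1, q2, q3.coprime_mul_right_right, by simp⟩
    have u' : Aq n N s c' M := ⟨q0, q1, q2, q3.coprime_mul_left_right, q4⟩
    have t2 : pp ^ (n + 1) ∣ M' := (Nat.Coprime.pow_left _ (pp_prime.coprime_iff_not_dvd.2 fun k =>
      dx_pp D (dx_dvd D pp_prime k))).dvd_of_dvd_mul_right (e ▸ aq_pw u)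
    have t1 := (dvd_pow_self _ n.succ_ne_zero).trans t2
    have M0 : 0 < M' := Nat.pos_of_ne_zero (left_ne_zero_of_mul (e ▸ q0))
    have nz := nz_pr M0 t1 (u'.2.2.2.1.coprime_dvd_left (aq_pp u)) g2
    have cy {c s} (hc : Sm N c) (q : Aq n N s c M) : Cyc M (pl.σ c) c :=
      fb_cyc (pl.ov c hc.1) (pl.fb c hc.1) (hc.1.coprime_iff_not_dvd.1 q.2.2.2.1.symm)
    beta_reduce
    rw [y0]
    exact Ol.zrel R γ e (cz hc u g2)
      ⟨sm_sq hc', sm_sq hc', M0, two_lt.trans_le (Nat.le_of_dvd M0 t1), nz 0, nz 1⟩ hc.2.2 hc'.2.2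
      ((pow_dvd_pow _ n.le_succ).trans t2) pl.σ (cy hc u) (cy hc' u') (fun r k =>
        let ⟨a1, _, a2, _⟩ := D r k
        ⟨a1, fun j => q4 r k (e ▸ sq r ▸ mul_dvd_mul j (dvd_prod_of_mem _ k)),
          u'.2.2.2.1.coprime_dvd_left (a2.trans q2), uk X h p a1 a2,
          fun j => fb_cyc (pl.ov r a1) (pl.fb r a1)⟩)
      cd (Y1 _ _ _ (cz hc u g2)) (hz D hc' u').1 (Y2 _ _ _ (cz hc u g2)) (hz D hc' u').2 m
  · have o := odd_of (sm_sq hc)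
    have q' := aq_mul (by simp [Dx]) q Nat.prime_two (by simp) o
    beta_reduce
    rw [y0, y0]
    exact Ol.zup R (cz hc q g2) Nat.prime_two t (o.mul_right o) (gl Nat.prime_two) cd
      (Y1 _ _ _ (cz hc q' g2)) (Y1 _ _ _ (cz hc q g2)) (Y2 _ _ _ (cz hc q' g2)) (Y2 _ _ _ (cz hc q g2)) m
  · beta_reduce
    rw [y0]
    exact (Y3 _ _ _ (cz hc q g2)).old (lev_Ga (Nat.pos_of_ne_zero q.1) t)

/-- the coordinates -/
def Zx.ec {A B : ℤ} (hD : 4 * (A : ℚ) ^ 3 + 27 * (B : ℚ) ^ 2 ≠ 0) (n : ℕ) :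
    (Fin 2 → Zn n) →+ Ep Qb A B := (Kx.Tw.co hD n : _ →+ P004M.TE.Pt A B)

theorem Zx.crd {A B : ℤ} (hD : 4 * (A : ℚ) ^ 3 + 27 * (B : ℚ) ^ 2 ≠ 0) (n : ℕ) :
    Crd (pp ^ n) (Ew.rj hD n) (ec hD n) :=
  have h := Ew.xy_co hD n
  ⟨h.inj, Ew.e_tor _, h.ex, fun g v => (h.act g v).trans (P014T.Uy.gE_ea _)⟩

/-- **the classes of Kato** -/
theorem zeta : ZETA Ev.Kz := fun X N G a A B w I x y p γ n h _ =>
  let ⟨z, u, v⟩ := zy (X := X) h p γ⁻¹ (crd (hq p.disc) n) (ζ := Ev.zt n)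
    (IsPrimitiveRoot.coe_units_iff.1 (Sy.ex_prim' n))
    (X4M.TE.mul_surj (L := Qb) two_ne_zero (hq p.disc) (pow_ne_zero n pp_ne))
  ⟨z, u, fun c hc M q t _ _ _ _ _ _ _ nn s ex ey eu ev => Ev.unp q.1 s (v c M hc q t) nn ex ey eu ev⟩

end Vale.Agent.P014U.Ct
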