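import Vale.Agent.P014U.Ct.Kato
import Vale.Agent.P014U.Ct.Lam
import Vale.Agent.P014U.Ct.Lgb
import Vale.Agent.P014U.Ct.Twr
import Vale.Agent.P014U.Ct.Frm
import Vale.Agent.P014U.Ct.Gam
import Vale.Agent.P014U.Ct.Dsc
import Vale.Agent.P014U.Ct.Fin
import Vale.Agent.P014U.Ct.Ktw
import Vale.Agent.P014U.Ct.Rlc
import Vale.Agent.P014U.Ct.Zeta
import Vale.Agent.P014U.Zr.Top
import Vale.Agent.P014U.Rc.All
import Vale.Agent.P014U.Pp.All
import Vale.Agent.P014U.Mu.All

/-! # P014U, block C-TOP: the closed rows -/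

set_option autoImplicit false
set_option linter.all false

namespace Vale.Agent.P014U.Ct

variable [Pp]

theorem ktw_all [Fl] : KTW Ev.Kz := ktw (Zr.rr Rc.rec_all) frm dsc fin

theorem core_all [Fl] : CORE := core Pp.patq frm rlc

/-- **the Euler system of Kato** -/
theorem kato_all : Top.KATO := kato gam zeta lgb (twr Mu.muq) ktw_all core_all

/-- the same with systems of odd level -/
theorem kato_all' : Top.KATO' := kato' gam zeta lgb (twr Mu.muq) ktw_all core_all

end Vale.Agent.P014U.Ct
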