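import Vale.Agent.P014T.Ct.Bas
import Vale.Agent.P014U.Ct.St
import Vale.Agent.P014U.Pp.Glk
import Vale.Agent.P014U.Pp.Gs
import Vale.Agent.P014U.Dr.Shp

/-! # P014U, block C-TOP: shared lemmas (helper46) -/

set_option autoImplicit false
set_option linter.all false

open NumberField Matrix PowerSeries
open scoped Classical

noncomputable section

namespace Vale.Agent.P014U.Ct.B0

open Vale.Agent.P022 (Qb GQ IsConj)
open Vale.Agent.P027M.S (Inert)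
open Vale.Agent.P022E.GW (Ov Fb)
open Vale.Agent.P022K.G2 (In)
open X4S (Pl)
open X4F (La Rj cj mj)
open Vale.Agent.P004F (M2)
open PadicInt (toZModPow)
open Dr (Hm Ha Zn aa am Gr Raw Eu Fm Cd Ch Co cor Ug Hm_le)
open P014T.Pq (Zq)
open Pp (Bs Tw)

export Vale.Agent.P014T.Ct.B0 (ch_refl ch_symm ch_trans ch_smul ch_add ch_map zq_smul zq_mono zq_map fd)

variable [Pp]

section eu

variable {n M : ℕ} {ρ : GQ →* M2 (Zn n)} {R R' : Type} [CommRing R] [CommRing R']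
  {ι : Zn n →+* R} {Ψ : GQ →* R} {S : Finset ℕ} {a : ℕ → ℤ} {Ad : ℕ → Prop} {z : Fm n}

theorem cor_map (m : M ≠ 0) (f : R →+* R') (y : GQ → Fin 2 → Zn n) (g : GQ) :
    f ∘ cor ρ ι Ψ (Hm M) y g = cor ρ (f.comp ι) (f.toMonoidHom.comp Ψ) (Hm M) y g := by
  have := (Hm M).quotient_finite_of_isOpen (Dr.Hm_open m)
  have := Fintype.ofFinite (GQ ⧸ Hm M)
  funext i
  simp only [cor, finsum_eq_sum_of_fintype, Function.comp, Finset.sum_apply, map_sum,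
    RingHom.map_mulVec, Dr.aa_map]
  rfl

/-- the norm relation for a set of new primes -/
theorem eu_prod (G : Gr ρ S a Ad) (E : Eu ρ S a Ad z) (pl : Pl) (m : Ad M) (c : Cd M Ψ)
    (C : Finset ℕ) (h : ∀ l ∈ C, l.Prime ∧ l ∉ S ∧ ¬ l ∣ M) : Ad (M * ∏ l ∈ C, l) ∧
      (∏ l ∈ C, (l : R)) • z (M * ∏ l ∈ C, l) R ι Ψ =
        (∏ l ∈ C, (l - a l * Ψ (pl.σ l) + Ψ (pl.σ l) ^ 2)) • z M R ι Ψ := by
  induction C using Finset.induction_on with
  | empty => simpa using m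
  | insert l C hl ih =>
    obtain ⟨i1, i2⟩ := ih fun k e => h k (Finset.mem_insert_of_mem e)
    obtain ⟨p, s, d⟩ := h l (Finset.mem_insert_self _ _)
    have d' : ¬ l ∣ M * ∏ k ∈ C, k := fun e => (p.dvd_mul.1 e).elim d fun e => by
      obtain ⟨k, k1, k2⟩ := (p.prime.dvd_finset_prod_iff _).1 e
      exact hl ((Nat.prime_dvd_prime_iff_eq p (h k (Finset.mem_insert_of_mem k1)).1).1 k2 ▸ k1)
    simp only [Finset.prod_insert hl]
    rw [mul_comm l, ← mul_assoc, mul_comm (l : R), mul_smul, E.odd _ _ ι Ψ l _ _ i1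
      (c.mono (dvd_mul_right _ _)) (pl.ov l p) s d' (pl.fb l p), smul_comm, i2, smul_smul]
    exact ⟨G.adl _ _ i1 p s d', rfl⟩

end eu

variable {N : ℕ} {a : ℕ → ℤ} {b : Bs}

theorem cd_eps (b : Bs) (M : ℕ) : Cd M b.ε := fun g _ => b.one g

section fl

variable [Fl]

theorem ug_of (L : Lf N a b) (n : ℕ) {l : ℕ} {P : Ideal (𝓞 Qb)} (o : Ov l P)
    (h : l ∈ b.S → l ∈ sp b ∧ ¬ l ∣ N) : Ug (b.ρ n) l P :=
  have l2 : l ≠ pp := fun e => (b.sub _ (Finset.mem_filter.1 (h (e ▸ b.two)).1).1).2 e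
  ⟨o, l2, fun i m => (congrArg (toZModPow n).mapMatrix ((L.gd l P o h).1 i m)).trans (map_one _),
    fun φ f => ((toZModPow n).map_det _).symm.trans ((congrArg _ (b.det φ)).trans
      (Pp.Gk.cz_mod fun z hz => Dr.root_cong o (Dr.nd_two o l2 n) f hz))⟩

/-- the data of the Euler systems -/
theorem gr_of (L : Lf N a b) (n : ℕ) {S s : Finset ℕ} {c : ℕ} (h2 : pp ∈ S) (hc : Sm N c) (cS : c ∈ S)
    (hs : Dx N s) (sS : s ⊆ S) (h : ∀ l ∉ S, l ∈ b.S → l ∈ sp b ∧ ¬ l ∣ N) :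
    Gr (b.ρ n) S a (Aq n N s c) := by
  have k : ∀ {M l : ℕ}, Aq n N s c M → l.Prime → l ≠ c → l ∉ s → Aq n N s c (M * l) :=
    fun {M l} m p e e' => ⟨mul_ne_zero m.1 p.ne_zero, m.2.1.mul_right _, m.2.2.1.mul_right _,
      Nat.Coprime.mul_left m.2.2.2.1 ((Nat.coprime_primes p hc.1).2 e), fun q hq d =>
        m.2.2.2.2 q hq (Nat.Coprime.dvd_of_dvd_mul_right (Nat.Coprime.pow_left _
          ((Nat.coprime_primes (hs q hq).1 p).2 fun r => e' (r ▸ hq))) d)⟩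
  refine ⟨h2, fun l P o m => (ug_of L n o (h l m)).unr, fun l P φ o m f =>
    ⟨(ug_of L n o (h l m)).det φ f, ?_⟩, fun M m => m.1, fun M m => k m pp_prime
      (fun e => one_lt.ne' (Nat.eq_one_of_dvd_coprimes m.2.2.2.1 (((dvd_pow_self _ n.succ_ne_zero).mul_left
        _).trans m.2.1) e.dvd)) fun e => (hs pp e).2.1 (dvd_mul_left _ _),
    fun M l m p e _ => k m p (fun r => e (r ▸ cS)) fun r => e (sS r)⟩
  rw [← map_intCast (toZModPow n), ← (L.gd l P o (h l m)).2 φ f]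
  exact (AddMonoidHom.map_trace (toZModPow n) _).symm

/-- the unit system -/
theorem gr_un (L : Lf N a b) (n : ℕ) {c : ℕ} (hc : Sm N c) :
    Gr (b.ρ n) (insert c b.S) a (Aq n N ∅ c) :=
  gr_of L n (Finset.mem_insert_of_mem b.two) hc (Finset.mem_insert_self _ _) (by simp [Dx])
    (Finset.empty_subset _) fun l m e => (m (Finset.mem_insert_of_mem e)).elim

theorem raw_un {n c : ℕ} {y : Fy n} (Z : Zy (b.ρ n) N a y) (hc : Sm N c) :
    Raw (b.ρ n) (insert c b.S) a (Aq n N ∅ c) (y ∅ c) :=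
  Z.raw _ _ _ (by simp [Dx]) hc (Finset.mem_insert_self _ _) (Finset.empty_subset _)

theorem lv_aq {n M c : ℕ} (h : Lv n N b.S M) (hc : c.Prime) (cS : c ∉ b.S) : Aq n N ∅ c M :=
  ⟨h.ne, h.two, h.dv, ((Nat.Prime.coprime_iff_not_dvd hc).2 fun d =>
    cS (h.pf ▸ Nat.mem_primeFactors.2 ⟨hc, d, h.ne⟩)).symm, by simp⟩

end fl

variable (t : Tw b) (j : ℕ)

theorem cd_psi {M : ℕ} (e : Cd M b.ε) (d : t.c j ∣ M) : Cd M (t.Ψ j) := fun g h => by
  rw [t.hΨ, e g h, (t.tq j).ker g (Hm_le d h), map_one, ZMod.val_zero, pow_zero, mul_one]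

theorem psi_pow (g : GQ) : t.Ψ j g ^ pp ^ (2 * j + 4) = 1 := by
  rw [t.hΨ, mul_pow, ← pow_mul, mul_comm (t.e j g).val, pow_mul, ← map_pow (mj _),
    X4F.Pa.mj_pow X4F.Pa.X_Im1 (pow_dvd_pow pp (by omega)), one_pow, mul_one, b.one, map_one, one_pow]

theorem io_det (g : GQ) : t.ι j (b.ρ (t.N j) g - 1).det = cj (j + 1) (dl b g) := by
  rw [← Pp.io_eq (t.ι j), dl, RingHom.map_det (toZModPow _), map_sub, map_one]
  rfl

theorem a_cj : ∃ v, 1 + t.a j b.c = vecMulVec (cj (j + 1) ∘ b.gp) v := by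
  obtain ⟨w, e⟩ := b.cj
  refine ⟨cj _ ∘ w, ?_⟩
  rw [t.a_eq, t.hΨ, b.εc, (t.tq j).cj _ b.cc, ZMod.val_zero, pow_zero, map_one, one_mul, one_smul]
  ext i k
  simpa [vecMulVec_apply, one_apply, apply_ite (cj (j + 1))] using
    congrArg (fun A => cj (j + 1) (A i k)) e

theorem prod_T : ∏ l ∈ t.T j, l = t.c j * t.q j :=
  Nat.prod_primeFactors_of_squarefree ((Nat.squarefree_mul ((Nat.Prime.coprime_iff_not_dvd
    (t.pq j).1).2 (t.pq j).2.2).symm).2 ⟨(t.tq j).sq, (t.pq j).1.squarefree⟩)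

variable {t} {c : ℕ}

theorem mem_T (X : Tx t c) {l : ℕ} (m : l ∈ t.T j) : l.Prime ∧ l ∉ insert c b.S := by
  have p := Nat.prime_of_mem_primeFactors m
  refine ⟨p, ((Pp.G0.mem_T p).1 m).elim (fun d => ((X.tq j).cy l p d).2) fun d => ?_⟩
  rw [(Nat.prime_dvd_prime_iff_eq p (t.pq j).1).1 d, Finset.mem_insert, not_or]
  exact ⟨X.ne j, (t.pq j).2.1⟩

theorem ev_psi {n : ℕ} {p : Rj (j + 1) →+* Zn n} (h : Ev p) : p.toMonoidHom.comp (t.Ψ j) = 1 :=
  MonoidHom.ext fun g => by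
    show p (t.Ψ j g) = 1
    rw [t.hΨ, map_mul, map_pow, h, b.one]
    simp

end Vale.Agent.P014U.Ct.B0
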