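import Vale.Agent.P014U.Gt.Elc

/-! # P014U, block C-TOP: the Euler factor at two does not vanish -/

set_option linter.all false

open scoped Classical
open WeierstrassCurve

namespace Vale.Agent.P014U.Top

open Vale.Agent.P014T Vale.Agent.P014T.Lc Vale.Agent.P014T.Sm
open Vale.Agent.P004F (hq)
open Vale.Agent.P004M.TE (al)

theorem al_le {A B : ℤ} (h : El A B) {p : ℕ} (hp : p.Prime) : al A B p ≤ p := by
  obtain ⟨D, hm⟩ := ex_min (Wq (sI A B))
  obtain ⟨W, e⟩ := Lc.ex_int hm.1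
  have k : Md (Wq W) A B D.u D.r D.s D.t := by
    have := Vc.ch_of D (Wq (sI A B))
    rwa [e, show Wq (sI A B) = ⟨0, 0, 0, A, B⟩ by ext <;> simp [P014T.Top.sI]] at this
  rw [e] at hm
  have hΔ : W.Δ ≠ 0 := fun z => hq h (by
    have := Md.disc k
    rw [map_Δ, z, map_zero, mul_zero] at this
    linear_combination -this / 16)
  have : (Wq W).IsElliptic := ⟨by simpa using hΔ⟩
  have a := (lf_all W hΔ hm hp).1
  have := np_pos W hp
  rw [Lk.lf_md k, ep] at a
  split_ifs at a <;> omega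

variable [Pp]

theorem E2.ne {A B e : ℤ} {h : El A B} (H : E2 h e) : e ≠ 0 := by
  obtain ⟨-, rfl⟩ | ⟨t, g, rfl⟩ | ⟨t, -, -, rfl⟩ := H
  · exact one_ne_zero
  · obtain ⟨P, o⟩ := P022K.GW.Pl.ex_ov Nat.prime_two
    obtain ⟨φ, f⟩ := P022D.W.exists_phi o.1 o.2.1 o.2.2
    obtain ⟨-, k⟩ | ⟨-, k⟩ := (elc A B h 2 Nat.prime_two pp_ne_two.symm).2
    · have := Int.cast_injective (((g P o).2 φ f).symm.trans ((k P o).2 φ f))
      have := al_le h Nat.prime_two
      omega
    · obtain ⟨x, i, n⟩ := (k P o).1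
      exact (n ((g P o).1 x i)).elim
  · omega

end Vale.Agent.P014U.Top
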