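import Vale.Agent.P014U.Ct.St
import Vale.Agent.P014U.Pp.Rn0
import Vale.Agent.P014U.Ba.La

/-! # P014U, block C-TOP: small lemmas for the glue -/

set_option autoImplicit false
set_option linter.all false

open NumberField Matrix Filter PowerSeries Set
open scoped Classical

noncomputable section

namespace Vale.Agent.P014U.Ct.G0

open Vale.Agent.P022 (Qb GQ)
open X4F (La Rj cj mj)
open X4F.Pat (U Sy Im mem_Im U_ge)
open PadicInt (toZModPow toZMod)
open Dr (Hm Zn Cd)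
open Pp (Bs Tw)
open Top (Pm)
open Ba (rd)

section

variable {c : ℕ}

theorem ex_sm {N : ℕ} (h : N ≠ 0) (F : Finset ℕ) : ∃ c, Sm N c ∧ c ∉ F := by
  obtain ⟨c, h1, h2, h3⟩ := Nat.exists_prime_gt_modEq_one (max 3 (F.sup id)) h
  exact ⟨c, ⟨h1, (le_max_left _ _).trans_lt h2, h3⟩, fun m =>
    ((Finset.le_sup (f := id) m).trans (le_max_right 3 _)).not_gt h2⟩

theorem Sm.odd {N : ℕ} (h : Sm N c) : Odd c := h.1.odd_of_ne_two (by have := h.2.1; omega)

theorem Sm.of {N N' : ℕ} (h : Sm N c) (d : N' ∣ N) : Sm N' c := ⟨h.1, h.2.1, h.2.2.of_dvd d⟩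

theorem fl_ne [Fl] : fl ≠ 0 := ne_zero_of_dvd_ne_zero (by decide) Fl.dv

theorem fl_two [Fl] {p : ℕ} (hp : p.Prime) (d : p ∣ fl) : p = 2 :=
  (Nat.prime_dvd_prime_iff_eq hp Nat.prime_two).1 (hp.dvd_of_dvd_pow (n := 2) (d.trans Fl.dv))

end

variable [Pp] {b : Bs} {c j n : ℕ}

theorem psi_eq (t : Tw b) (j : ℕ) (g : GQ) : t.Ψ j g = mj _ (1 + X) ^ (t.e j g).val := by
  rw [t.hΨ, b.one, map_one, one_mul]

theorem psi_pow (t : Tw b) (j : ℕ) (g : GQ) : t.Ψ j g ^ pp ^ (2 * j + 1) = 1 := by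
  rw [psi_eq, pow_right_comm, map_add, map_one, Pp.Rg.X_ord le_rfl, one_pow]

/-! ## limits -/

theorem ur_cj (y : ℤ_[pp]) : Sy.succ.ur (fun j => cj (j + 1) y) = C y := Sy.succ.ur_const _

theorem ex_ev (h : n ≤ j) : ∃ p : Rj j →+* Zn n, Ev p := by
  refine ⟨Ideal.Quotient.lift _ ((toZModPow n).comp constantCoeff) fun y m => ?_, fun _ => rfl⟩
  rcases Nat.eq_zero_or_pos n with rfl | n0
  · exact Subsingleton.elim (α := ZMod 1) _ _
  · rw [RingHom.comp_apply, ← RingHom.mem_ker, PadicInt.ker_toZModPow, Ideal.mem_span_singleton,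
      ← coeff_zero_eq_constantCoeff_apply]
    exact (pow_dvd_pow _ h).trans (mem_Im.1 m 0 (n0.trans_le h))

theorem Ev.cj {p : Rj j →+* Zn n} (h : Ev p) (y : ℤ_[pp]) : p (cj j y) = toZModPow n y :=
  (h _).trans (by rw [constantCoeff_C])

theorem ev_ur (n : ℕ) (x : ∀ j, Rj (j + 1)) : ∀ᶠ j in U, ∀ p : Rj (j + 1) →+* Zn n, Ev p →
    p (x j) = toZModPow n (constantCoeff (Sy.succ.ur x)) :=
  (Sy.succ.ur_spec x (n + 1)).mono fun j e p h => by
    obtain ⟨y, hy⟩ := Ideal.Quotient.mk_surjective (x j)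
    rw [← hy, h, ← sub_eq_zero, ← map_sub, ← map_sub, ← RingHom.mem_ker, PadicInt.ker_toZModPow,
      Ideal.mem_span_singleton, ← coeff_zero_eq_constantCoeff_apply]
    exact (pow_dvd_pow _ n.le_succ).trans (mem_Im.1 (e y hy) 0 n.succ_pos)

theorem ev_vec {ι : Type} [Finite ι] (n : ℕ) (x : ∀ j, ι → Rj (j + 1)) :
    ∀ᶠ j in U, ∀ p : Rj (j + 1) →+* Zn n, Ev p →
      p ∘ x j = toZModPow n ∘ fun i => constantCoeff (Sy.succ.ur fun j => x j i) :=
  (eventually_all.2 fun i => ev_ur n fun j => x j i).mono fun _ e p h => funext fun i => e i p h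

theorem ev_um {ι κ : Type} [Finite ι] [Finite κ] (n : ℕ) (Q : ∀ j, Matrix ι κ (Rj (j + 1))) :
    ∀ᶠ j in U, ∀ p : Rj (j + 1) →+* Zn n, Ev p →
      (Q j).map p = ((Sy.succ.um Q).map constantCoeff).map (toZModPow n) :=
  (eventually_all.2 fun i => eventually_all.2 fun k => ev_ur n fun j => Q j i k).mono
    fun _ e p h => Matrix.ext fun i k => e i k p h

theorem ur_one (k : ℕ → ℕ) :
    constantCoeff (Sy.succ.ur fun j => mj (j + 1) (1 + X) ^ k j) = 1 := by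
  rw [← PadicInt.ext_of_toZModPow]
  intro n
  obtain ⟨j, e, l⟩ := ((ev_ur n fun j => mj (j + 1) (1 + X) ^ k j).and (U_ge n)).exists
  obtain ⟨p, hp⟩ := ex_ev (l.trans j.le_succ)
  rw [← e p hp, map_pow, hp]
  simp

theorem co_k (i k : ℕ) : coeff i ((1 + X : La) ^ k) = (k.choose i : ℤ_[pp]) := by
  rw [← Polynomial.coeff_one_add_X_pow, ← Polynomial.coeff_coe]
  simp

theorem sq_dvd {k : ℕ} (h : pp ∣ k.choose 1) (h' : pp ∣ k.choose pp) : pp ^ 2 ∣ k := by
  obtain ⟨m, rfl⟩ := k.choose_one_right ▸ h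
  have := Choose.choose_modEq_choose_mod_mul_choose_div_nat (n := pp * m) (k := pp) (p := pp)
  rw [Nat.mul_mod_right, Nat.mod_self, Nat.mul_div_cancel_left _ pp_prime.pos,
    Nat.div_self pp_prime.pos, Nat.choose_self, Nat.choose_one_right, one_mul] at this
  exact pow_two pp ▸ mul_dvd_mul_left _ ((this.dvd_iff dvd_rfl).1 h')

theorem rd_ne (t : Tw b) {g : GQ} (h : ∀ j, ¬ pp ^ 2 ∣ (t.e j g).val) (s : ZMod pp) :
    rd (Sy.succ.ur fun j => t.Ψ j g) ≠ C s := fun e => by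
  obtain ⟨j, k⟩ := (Sy.succ.ur_spec (fun j => t.Ψ j g) (pp + 1)).exists
  have k := mem_Im.1 (k ((1 + X) ^ (t.e j g).val) (by rw [psi_eq, map_pow]))
  have q (i) (i0 : i ≠ 0) (l : i < pp + 1) : pp ∣ (t.e j g).val.choose i := by
    have e := congrArg (coeff i) e
    rw [coeff_map, coeff_C, if_neg i0] at e
    have k := map_dvd toZMod ((dvd_pow_self _ pp.succ_ne_zero).trans (k i l))
    rwa [map_sub, co_k, map_sub, e, sub_zero, map_natCast, map_natCast, ZMod.natCast_self,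
      zero_dvd_iff, ZMod.natCast_eq_zero_iff] at k
  exact h j (sq_dvd (q 1 one_ne_zero (Nat.succ_lt_succ pp_prime.pos)) (q pp pp_ne pp.lt_succ_self))

theorem sm_ur (t : Tw b) (φ : GQ) (c : ℕ) : Sy.succ.ur (fun j => sm (t.Ψ j) φ c) =
    (c ^ 2 - c * Sy.succ.ur fun j => t.Ψ j φ⁻¹) ^ 2 := by
  rw [← map_natCast Sy.succ.ur, ← map_pow, ← map_mul, ← map_sub, ← map_pow]
  rfl

/-- the smoothing factor has no `μ`-invariant -/
theorem sm_rd {t : Tw b} (x : Tx t c) (hc : c.Prime) (o : c ≠ pp) :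
    rd (Sy.succ.ur fun j => sm (t.Ψ j) (b.pl.σ c) c) ≠ 0 := by
  have c0 : (c : ZMod pp) ≠ 0 := fun e =>
    o ((Nat.prime_dvd_prime_iff_eq pp_prime hc).1 ((ZMod.natCast_eq_zero_iff _ _).1 e)).symm
  rw [sm_ur, map_pow, map_sub, map_pow, map_mul, map_natCast, ← map_natCast (C (R := ZMod pp)),
    pow_two (C _), ← mul_sub]
  refine pow_ne_zero _ (mul_ne_zero (fun e => c0 (C_injective (e.trans C.map_zero.symm)))
    (sub_ne_zero.2 fun e => rd_ne t (fun j => (x.tq j).fro c (Finset.mem_insert_self _ _) _ _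
      (b.pl.ov c hc) (b.pl.fb c hc)) (c : ZMod pp)⁻¹ ?_))
  have k : rd (Sy.succ.ur fun j => t.Ψ j (b.pl.σ c)) * C (c : ZMod pp) = 1 := by
    rw [e, ← map_mul, ← map_mul, ← map_one rd, ← map_one Sy.succ.ur]
    exact congrArg _ (congrArg _ (funext fun j => by simp [← map_mul]))
  rw [← mul_one (rd _), ← map_one C, ← mul_inv_cancel₀ c0, map_mul, ← mul_assoc, k, one_mul]

theorem sm_zero (t : Tw b) (φ : GQ) (c : ℕ) :
    constantCoeff (Sy.succ.ur fun j => sm (t.Ψ j) φ c) = s0 c := by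
  rw [sm_ur, map_pow, map_sub, map_pow, map_mul, map_natCast, funext fun j => psi_eq t j φ⁻¹,
    ur_one, mul_one, s0]

/-! ## choices -/

theorem s0_ne {N : ℕ} (h : Sm N c) : s0 c ≠ 0 := by
  refine pow_ne_zero _ (sub_ne_zero.2 fun e => ?_)
  have e : c ^ 2 = c := by exact_mod_cast e
  have := h.2.1
  nlinarith

theorem rho_det (b : Bs) (n : ℕ) (g : GQ) : (b.ρ n g - 1).det = toZModPow n (dl b g) := by
  rw [dl, RingHom.map_det, map_sub, map_one]
  rfl

/-- the reduction kills the annihilator -/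
theorem ann {δ : ℤ_[pp]} (h : δ ≠ 0) : ∃ v : ℕ, ∀ (n k : ℕ) (R : Type) [CommRing R]
    (ι : Zn n →+* R), k + v ≤ n → (pp : R) ^ k = 0 → ∀ x, toZModPow n δ ^ 2 * x = 0 → ι x = 0 := by
  obtain ⟨v, y, e⟩ : ∃ v : ℕ, δ ^ 2 ∣ (pp : ℤ_[pp]) ^ v := by
    refine ⟨(δ ^ 2).valuation, ?_⟩
    have := PadicInt.unitCoeff_spec (pow_ne_zero 2 h)
    exact ⟨↑(PadicInt.unitCoeff (pow_ne_zero 2 h))⁻¹, by
      rw [Units.eq_mul_inv_iff_mul_eq, mul_comm]; exact this.symm⟩
  refine ⟨v, fun n k R _ ι le k0 x hx => ?_⟩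
  have : (pp : Zn n) ^ v * x = 0 := by
    rw [← map_natCast (toZModPow n), ← map_pow, e, map_mul, map_pow, mul_right_comm, hx, zero_mul]
  obtain ⟨x, rfl⟩ := ZMod.natCast_zmod_surjective x
  have d : pp ^ n ∣ pp ^ v * x := (ZMod.natCast_eq_zero_iff _ _).1 (by exact_mod_cast this)
  obtain ⟨z, rfl⟩ := Nat.dvd_of_mul_dvd_mul_left (k := pp ^ v) (pow_pos pp_prime.pos _)
    ((pow_add pp v k ▸ pow_dvd_pow pp (add_comm k v ▸ le)).trans d)
  rw [map_natCast, Nat.cast_mul, Nat.cast_pow, k0, zero_mul]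

variable [Fl]

theorem ex_lv {N : ℕ} {S : Finset ℕ} (h : N ≠ 0) (pS : Pm S) (two : pp ∈ S)
    (bd : ∀ p : ℕ, p.Prime → p ∣ 2 * N → p ∈ S) (n : ℕ) : ∃ M, Lv n N S M := by
  have sq : Squarefree (∏ p ∈ S, p) := Finset.squarefree_prod_of_pairwise_isCoprime
    (fun p a q a' e => Nat.coprime_iff_isRelPrime.1 ((Nat.coprime_primes (pS p a) (pS q a')).2 e))
    fun p a => (pS p a).squarefree
  have l0 := Nat.lcm_ne_zero h sq.ne_zero
  have m0 := mul_ne_zero (mul_ne_zero fl_ne (pow_ne_zero (n + 1) pp_ne)) l0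
  refine ⟨_, m0, Finset.ext fun p => ?_,
    dvd_mul_right _ _, (Nat.dvd_lcm_left _ _).mul_left _, fun p hp p2 d => ?_⟩
  · rw [Nat.mem_primeFactors]
    refine ⟨fun ⟨hp, d, _⟩ => ?_, fun m => ⟨pS p m, ((Finset.dvd_prod_of_mem _ m).trans
      (Nat.dvd_lcm_right _ _)).mul_left _, m0⟩⟩
    rcases hp.dvd_mul.1 d with d | d
    · rcases hp.dvd_mul.1 d with d | d
      · exact bd p hp (fl_two hp d ▸ dvd_mul_right _ _)
      · exact (Nat.prime_dvd_prime_iff_eq hp pp_prime).1 (hp.dvd_of_dvd_pow d) ▸ two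
    rcases hp.dvd_lcm.1 d with d | d
    · exact bd p hp (d.mul_left _)
    · exact Nat.primeFactors_prod pS ▸ Nat.mem_primeFactors.2 ⟨hp, d, sq.ne_zero⟩
  · have d := (Nat.Coprime.pow_left 2 (Nat.Coprime.mul_right
      (hp.coprime_iff_not_dvd.2 fun e => p2 (e.mul_right _)) (Nat.Coprime.pow_right (n + 1)
        (hp.coprime_iff_not_dvd.2 fun e => p2 (e.mul_left _))))).dvd_of_dvd_mul_left d
    rw [hp.pow_dvd_iff_le_factorization l0, Nat.factorization_lcm h sq.ne_zero, Finsupp.sup_apply,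
      le_sup_iff] at d
    refine (hp.pow_dvd_iff_le_factorization h).2 (d.resolve_right fun k => ?_)
    exact (k.trans (sq.natFactorization_le_one p)).not_gt one_lt_two

/-- the local factors which the system does not see -/
def Ek (t : Tw b) : La := ∏ p ∈ b.σ.filter (· ∣ fl), (b.E p).eval₂ C
  (Sy.succ.ur fun j => mj (j + 1) (1 + X) ^ (t.e j (b.pl.σ p)).val)

theorem ek_zero (t : Tw b) : constantCoeff (Ek t) = ek b := by
  rw [Ek, map_prod]
  refine Finset.prod_congr rfl fun p _ => ?_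
  rw [Polynomial.hom_eval₂, ur_one]
  exact congrArg (Polynomial.eval₂ · _ _) (RingHom.ext constantCoeff_C)

theorem ej_lim (t : Tw b) : t.E = Ek t * Sy.succ.ur fun j => Ej t j := by
  rw [Tw.E, ← Finset.prod_filter_mul_prod_filter_not _ (· ∣ fl), show (fun j => Ej t j) =
    ∏ p ∈ sp b, (b.E p).eval₂ (RingHom.pi fun j => cj (j + 1))
    fun j => mj (j + 1) (1 + X) ^ (t.e j (b.pl.σ p)).val from funext fun j => by
      rw [Finset.prod_apply]
      exact Finset.prod_congr rfl fun p _ =>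
        (Polynomial.hom_eval₂ (b.E p) (RingHom.pi fun j => cj (j + 1))
          (Pi.evalRingHom (fun j => Rj (j + 1)) j)
          fun j => mj (j + 1) (1 + X) ^ (t.e j (b.pl.σ p)).val).symm, map_prod]
  refine congrArg _ (Finset.prod_congr rfl fun p _ => ?_)
  rw [Polynomial.hom_eval₂]
  exact congrArg (Polynomial.eval₂ · _ _) (RingHom.ext ur_cj).symm

end Vale.Agent.P014U.Ct.G0
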