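import Vale.Agent.P014T.Tv.Md
import Vale.Agent.P014T.Top
import Vale.Agent.P027M.M.CAll
import Vale.Agent.P014U.Ct.St
import Vale.Agent.P014U.Pp.Rn0
import Vale.Agent.P014U.Pg.Qd

/-! # P014U, block C-TOP: the rows `KATO` from the rows of the block -/

set_option autoImplicit false
set_option linter.all false

open Matrix
open scoped Classical

noncomputable section

namespace Vale.Agent.P014U.Ct

open Vale.Agent.P022 (GQ)
open Vale.Agent.P004F (hq)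
open P004N (RN)
open P004M.TE (al conj_sq)
open X4M.TE (det_conj)
open PadicInt (toZModPow)
open Dr (Ha Zn)
open Pp (Bs Tw)
open Top (Pm Lp E2 Kt El)
open P014T.Rc (KZ)
open P014T.Pu (ParY)

variable [Pp]

namespace K0

theorem ex_S {A B : ℤ} {N : ℕ} {a : ℕ → ℤ} (h : El A B) (n0 : N ≠ 0)
    (f : {p : ℕ | p.Prime ∧ al A B p ≠ a p}.Finite) {S₀ : Finset ℕ} (p0 : Pm S₀) :
    ∃ S, S₀ ⊆ S ∧ Pm S ∧ Bad A B N a S := by
  have k : (2 * pp * N * (4 * A ^ 3 + 27 * B ^ 2)).natAbs ≠ 0 := by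
    have := pp_ne
    rw [Int.natAbs_ne_zero]
    positivity
  exact ⟨S₀ ∪ (_ ∪ f.toFinset), Finset.subset_union_left, p0.union (P014T.Top.Pm.union
    (fun p => Nat.prime_of_mem_primeFactors) fun p m => (f.mem_toFinset.1 m).1),
    fun p hp m => Finset.mem_union_right _ (Finset.mem_union.2
      (m.imp (fun m => Nat.mem_primeFactors.2 ⟨hp, Int.natCast_dvd.1 m, k⟩)
        fun m => f.mem_toFinset.2 ⟨hp, m⟩))⟩

theorem ex_sm {N : ℕ} (h : N ≠ 0) (F : Finset ℕ) : ∃ c, Sm N c ∧ c ∉ F := by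
  obtain ⟨c, h1, h2, h3⟩ := Nat.exists_prime_gt_modEq_one (max 3 (F.sup id)) h
  exact ⟨c, ⟨h1, (le_max_left _ _).trans_lt h2, h3⟩, fun m =>
    ((Finset.le_sup (f := id) m).trans (le_max_right 3 _)).not_gt h2⟩

theorem rho_det (b : Bs) (n : ℕ) (g : GQ) : (b.ρ n g - 1).det = toZModPow n (dl b g) := by
  rw [dl, RingHom.map_det, map_sub, map_one]
  rfl

/-- the reduction kills the annihilator -/
theorem ann {δ : ℤ_[pp]} (h : δ ≠ 0) : ∃ v : ℕ, ∀ (n k : ℕ) (R : Type) [CommRing R] (ι : Zn n →+* R),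
    k + v ≤ n → (pp : R) ^ k = 0 → ∀ x, toZModPow n δ ^ 2 * x = 0 → ι x = 0 := by
  obtain ⟨v, y, e⟩ : ∃ v : ℕ, δ ^ 2 ∣ pp ^ v := by
    refine ⟨(δ ^ 2).valuation, ?_⟩
    have := PadicInt.unitCoeff_spec (pow_ne_zero 2 h)
    exact ⟨↑(PadicInt.unitCoeff (pow_ne_zero 2 h))⁻¹, by
      rw [Units.eq_mul_inv_iff_mul_eq, mul_comm]; exact this.symm⟩
  refine ⟨v, fun n k R _ ι le k0 x hx => ?_⟩
  have : (pp : Zn n) ^ v * x = 0 := by
    rw [← map_natCast (toZModPow n), ← map_pow, e, map_mul, map_pow, mul_right_comm, hx, zero_mul]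
  obtain ⟨x, rfl⟩ := ZMod.natCast_zmod_surjective x
  have d : pp ^ n ∣ pp ^ v * x := (ZMod.natCast_eq_zero_iff _ _).1 (by exact_mod_cast this)
  obtain ⟨z, rfl⟩ := Nat.dvd_of_mul_dvd_mul_left (k := pp ^ v) (pow_pos pp_prime.pos _)
    ((pow_add pp v k ▸ pow_dvd_pow pp (add_comm k v ▸ le)).trans d)
  rw [map_natCast, Nat.cast_mul, Nat.cast_pow, k0, zero_mul]

theorem hi_of {b : Bs} {g₀ : GQ} (h : dl b g₀ ≠ 0) :
    ∃ N₀ : ℕ → ℕ, ∀ t : Tw b, (∀ j, N₀ j ≤ t.N j) → Hi t g₀ :=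
  let ⟨v, hv⟩ := ann h
  ⟨fun j => j + 1 + v, fun t le j x e =>
    hv _ (j + 1) _ (t.ι j) (le j) Pp.Rg.two_mq x (rho_det b _ g₀ ▸ e)⟩

variable [Fl]

theorem ex_lv {N : ℕ} {S : Finset ℕ} (h : N ≠ 0) (pS : Pm S) (two : 2 ∈ S) (p1 : pp ∈ S)
    (bd : ∀ p : ℕ, p.Prime → p ∣ N → p ∈ S) (n : ℕ) : ∃ M, Lv n N S M := by
  have sq : Squarefree (∏ p ∈ S, p) := Finset.squarefree_prod_of_pairwise_isCoprime
    (fun p a q a' e => Nat.coprime_iff_isRelPrime.1 ((Nat.coprime_primes (pS p a) (pS q a')).2 e))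
    fun p a => (pS p a).squarefree
  have l0 := Nat.lcm_ne_zero h sq.ne_zero
  have f0 : fl * pp ^ (n + 1) ≠ 0 :=
    mul_ne_zero (ne_zero_of_dvd_ne_zero four_ne_zero Fl.dv) (pow_ne_zero _ pp_ne)
  refine ⟨fl * pp ^ (n + 1) * N.lcm (∏ p ∈ S, p), mul_ne_zero f0 l0, Finset.ext fun p => ?_,
    dvd_mul_right _ _, (Nat.dvd_lcm_left _ _).mul_left _, fun p hp p2 d => ?_⟩
  · rw [Nat.mem_primeFactors]
    refine ⟨fun ⟨hp, d, _⟩ => ?_, fun m => ⟨pS p m, ((Finset.dvd_prod_of_mem _ m).trans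
      (Nat.dvd_lcm_right _ _)).mul_left _, mul_ne_zero f0 l0⟩⟩
    rcases hp.dvd_mul.1 d with d | d
    · rcases hp.dvd_mul.1 d with d | d
      · exact (Nat.prime_dvd_prime_iff_eq hp Nat.prime_two).1
          (hp.dvd_of_dvd_pow (show p ∣ 2 ^ 2 from d.trans Fl.dv)) ▸ two
      · exact (Nat.prime_dvd_prime_iff_eq hp pp_prime).1 (hp.dvd_of_dvd_pow d) ▸ p1
    rcases hp.dvd_lcm.1 d with d | d
    · exact bd p hp d
    · exact Nat.primeFactors_prod pS ▸ Nat.mem_primeFactors.2 ⟨hp, d, sq.ne_zero⟩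
  · have d := (Nat.Coprime.pow_left 2 (hp.coprime_iff_not_dvd.2 fun k => p2
      ((hp.dvd_mul.1 k).elim (·.mul_right _) fun k =>
        (hp.dvd_of_dvd_pow k).mul_left _))).dvd_of_dvd_mul_left d
    rw [hp.pow_dvd_iff_le_factorization l0, Nat.factorization_lcm h sq.ne_zero, Finsupp.sup_apply,
      le_sup_iff] at d
    refine (hp.pow_dvd_iff_le_factorization h).2 (d.resolve_right fun k => ?_)
    exact (k.trans (sq.natFactorization_le_one p)).not_gt one_lt_two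

/-- one choice of the fixed level -/
theorem kato0 {Kz : KZ} (g : GAM) (h1 : ZETA Kz) (h2 : LGB) (h3 : TWR) (h4 : KTW Kz) (h5 : CORE)
    {N G a A B w I x y} (h : ParY N a A B w I x y) (rn : RN N G a) {S₀ : Finset ℕ} {e : ℤ}
    (p0 : Pm S₀) (l1 : ∀ p : ℕ, p.Prime → ¬ p ∣ fl * pp → Lp h.disc N a p)
    (l2 : 2 ∣ fl → E2 h.disc e) (e0 : e ≠ 0) :
    ∃ (S : Finset ℕ) (α : ℚ_[pp]), S₀ ⊆ S ∧ Pm S ∧ Kt h.disc S α ∧ ‖e * α‖ ≤ 1 := by
  obtain ⟨⟨γ, hγ⟩, x, y, rfl, rfl⟩ := g N G a A B w I x y rn h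
  obtain ⟨X⟩ := P027M.M.mdl
  obtain ⟨S, sub, pS, bd⟩ := ex_S h.disc rn.pos.ne' h.mat p0
  obtain ⟨c, hc⟩ := P014T.Tv.ex_cj
  obtain ⟨gp, v, u, e1, e2, e3⟩ := Pg.ex_gp (C := X4M.TE.mt (hq h.disc) c)
    (by rw [← map_mul, conj_sq (hq h.disc) hc, map_one]) (det_conj _ hc)
  obtain ⟨pl⟩ := X4S.pl_ex
  obtain ⟨g₀, ha, -, δ, dδ, -, -, -, δ0, -⟩ := Pg.ex_u (hq h.disc) 0
  obtain ⟨b, m, rfl, e', he, q, rfl⟩ := h2 A B h.disc N G a e S c gp v u pl rn l1 l2 pS bd hc e1 e2 e3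
  have n0 : dl b g₀ ≠ 0 := by rwa [dl, m.r, dδ]
  obtain ⟨c, s, c0⟩ := ex_sm rn.pos.ne' b.S
  obtain ⟨N₀, hi⟩ := hi_of n0
  obtain ⟨t, le, tx, mz⟩ := h3 A B h.disc N a b c N₀ m s.1 c0
  have hi := hi t le
  choose M lv using fun j => ex_lv rn.pos.ne' pS (m.lf.bad 2 Nat.prime_two (dvd_mul_right _ _)) b.two
    (fun p hp k => m.lf.bad p hp (k.mul_left _)) (t.N j)
  choose z zy zk using fun j => h1 X N G a A B w I x y h γ (t.N j) rn (j.succ_pos.trans_le (t.le j))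
  have zy : ∀ j, Zy (b.ρ (t.N j)) N a (z j) := fun j => by rw [Bs.ρ, m.r]; exact zy j
  obtain ⟨α, k⟩ := h5 b N a c g₀ t tx m.lf s c0 ha n0 mz hi M z lv zy
  have e1 := left_ne_zero_of_mul e0
  refine ⟨_, _, sub, pS, h4 X N G a A B w I x y h γ b c g₀ t M z e' α rn hγ m s c0 ha n0 tx hi lv zy
    (fun j => zk j c s) e1 (he ▸ k), ?_⟩
  rw [Int.cast_mul, mul_right_comm, mul_div_cancel₀ _ (Int.cast_ne_zero.2 e1), ← PadicInt.coe_intCast,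
    ← PadicInt.coe_mul]
  exact (α * q).2

end K0

variable {Kz : KZ} (g : GAM) (h1 : ∀ [Fl], ZETA Kz) (h2 : ∀ [Fl], LGB) (h3 : ∀ [Fl], TWR)
  (h4 : ∀ [Fl], KTW Kz) (h5 : ∀ [Fl], CORE)
include g h1 h2 h3 h4 h5

/-- **the Euler system of Kato** -/
theorem kato : Top.KATO :=
  fun N G a A B w I x y h rn S₀ e p0 l1 l2 e0 =>
    letI : Fl := ⟨4, dvd_rfl⟩
    K0.kato0 g h1 h2 h3 h4 h5 h rn p0 (fun p k d => l1 p k (fun e => d (e ▸ dvd_mul_left _ _))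
      fun e => d (e ▸ Dvd.dvd.mul_right ⟨2, rfl⟩ _)) (fun _ => l2) e0

/-- the same with systems of odd level -/
theorem kato' : Top.KATO' := fun N G a A B w I x y h rn S₀ p0 l1 l2 => by
  letI : Fl := ⟨1, one_dvd _⟩
  simpa using K0.kato0 (e := 1) g h1 h2 h3 h4 h5 h rn p0 (fun p k d => if e : p = 2 then e ▸ l2 else
    l1 p k (fun e => d (e ▸ dvd_mul_left _ _)) e) (fun d => absurd d (by decide)) one_ne_zero

end Vale.Agent.P014U.Ct
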